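import Vale.Agent.P159.TM.H928.Trans
import Vale.Agent.P159.TM.H331.Final

/-!
P159, row IDWI (of `TM/H574/Stmt.lean`): free against zero boundary conditions for neutral
functionals in the centre of a square, from the constants of the annuli.
-/

open MeasureTheory
open scoped BigOperators

namespace Vale.Agent.P159.TM.H928

open Vale.Agent.P159.T1 Vale.Agent.P159.T1.H934 Vale.Agent.P159.T1.H910
open Vale.Agent.P159.H353 (wI wI_zero_pos wI_neg)
open Vale.Agent.P159.R2.H254 (Fa Eb blf brt bcur Hgt hWt hWt_eq)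
open Vale.Agent.P159.TM.SpecI Vale.Agent.P159.TM.H574
open Vale.Agent.P159.TM.H331 (Bd he fcur W0 AnnK inSq isand_exp)

section sums

variable {n : ℕ} [NeZero n] {N : ℕ} {p : ℕ × ℕ}

/-- sums over a square in coordinates -/
lemma sum_bx {q : ℕ × ℕ} {r : ℕ} (h1 : q.1 + r ≤ n) (h2 : q.2 + r ≤ n) (F : V n → ℝ) :
    ∑ x ∈ bx (n := n) q r, F x = ∑ i ∈ Finset.range r, ∑ j ∈ Finset.range r,
      F (vp n (q.1 + i) (q.2 + j)) := by
  classical
  rw [← Finset.sum_product']
  have hinj : ∀ x ∈ Finset.range r ×ˢ Finset.range r, ∀ y ∈ Finset.range r ×ˢ Finset.range r,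
      vp n (q.1 + x.1) (q.2 + x.2) = vp n (q.1 + y.1) (q.2 + y.2) → x = y := by
    intro x hx y hy h
    rw [Finset.mem_product, Finset.mem_range, Finset.mem_range] at hx hy
    have := (grid_V (n := n)).inj _ _ _ _ (by omega) (by omega) (by omega) (by omega) h
    exact Prod.ext (by omega) (by omega)
  rw [← Finset.sum_image (s := Finset.range r ×ˢ Finset.range r)
    (g := fun x : ℕ × ℕ => vp n (q.1 + x.1) (q.2 + x.2)) (f := F) hinj]
  congr 1
  ext x
  rw [mem_bx, Finset.mem_image]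
  constructor
  · intro h
    refine ⟨(x.1.val - q.1, x.2.val - q.2), ?_, ?_⟩
    · rw [Finset.mem_product, Finset.mem_range, Finset.mem_range]
      simp only
      omega
    · unfold vp
      simp only
      have e1 : q.1 + (x.1.val - q.1) = x.1.val := by omega
      have e2 : q.2 + (x.2.val - q.2) = x.2.val := by omega
      rw [e1, e2, ZMod.natCast_zmod_val, ZMod.natCast_zmod_val]
  · rintro ⟨y, hy, rfl⟩
    rw [Finset.mem_product, Finset.mem_range, Finset.mem_range] at hy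
    unfold vp
    simp only
    rw [vc (by omega), vc (by omega)]
    omega

/-- sums over the faces -/
lemma sum_em (h1 : p.1 + (N + 1) ≤ n) (h2 : p.2 + (N + 1) ≤ n) (F : V n → ℝ) :
    ∑ f : Fa N, F (em n N p f) = ∑ x ∈ bx (n := n) p (N + 1), F x := by
  classical
  rw [← Finset.sum_image (s := Finset.univ) (g := em n N p) (f := F)
    (fun x _ y _ h => em_inj h1 h2 h)]
  congr 1
  ext x
  rw [Finset.mem_image]
  constructor
  · rintro ⟨f, -, rfl⟩
    exact em_mem h1 h2 f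
  · intro hx
    obtain ⟨f, hf⟩ := bx_em hx
    exact ⟨f, Finset.mem_univ _, hf⟩

omit [NeZero n] in
lemma em_fp {i j : ℕ} (hi : i < N + 1) (hj : j < N + 1) :
    em n N p (fp N i j) = vp n (p.1 + i) (p.2 + j) := by
  rw [fp_eq hi hj]
  rfl

/-- a functional supported in a smaller square, in coordinates -/
lemma pr_coord {q : ℕ × ℕ} {r : ℕ} (h1 : q.1 + r ≤ n) (h2 : q.2 + r ≤ n) {g : V n → ℝ}
    (hg : ∀ x, x ∉ bx q r → g x = 0) (h : V n → ℤ) :
    pr g h = ∑ i ∈ Finset.range r, ∑ j ∈ Finset.range r,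
      g (vp n (q.1 + i) (q.2 + j)) * (h (vp n (q.1 + i) (q.2 + j)) : ℝ) := by
  unfold pr
  rw [← sum_bx h1 h2 fun x => g x * (h x : ℝ)]
  symm
  apply Finset.sum_subset (Finset.subset_univ _)
  intro x _ hx
  rw [hg x hx, zero_mul]

lemma sum_coord {q : ℕ × ℕ} {r : ℕ} (h1 : q.1 + r ≤ n) (h2 : q.2 + r ≤ n) {g : V n → ℝ}
    (hg : ∀ x, x ∉ bx q r → g x = 0) :
    ∑ x, g x = ∑ i ∈ Finset.range r, ∑ j ∈ Finset.range r, g (vp n (q.1 + i) (q.2 + j)) := by
  rw [← sum_bx h1 h2 fun x => g x]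
  symm
  apply Finset.sum_subset (Finset.subset_univ _)
  intro x _ hx
  exact hg x hx

end sums

/-- the constants of the annuli `[0, (2m+1) r) \ [m r, (m+1) r)` -/
def KANN (b : ℝ) : Prop :=
  ∃ C c : ℝ, 0 < C ∧ 0 < c ∧ ∀ r m : ℕ, 2 ≤ r → 1 ≤ m →
    ∃ K : ℝ, 1 ≤ K ∧ K ≤ 1 + C * (m : ℝ) ^ (-c) ∧ AnnK ((2 * m + 1) * r - 1) b (m * r) (m * r) r K

/-- one square -/
theorem idwi_one {b : ℝ} (hb : 0 ≤ b) {n : ℕ} [NeZero n] {N r m : ℕ} {p : ℕ × ℕ} (hr : 2 ≤ r)
    (hm : 1 ≤ m) (hN : N + 1 = (2 * m + 1) * r) (hp1 : 1 ≤ p.1) (hp2 : 1 ≤ p.2)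
    (h1 : p.1 + (N + 1) + 1 ≤ n) (h2 : p.2 + (N + 1) + 1 ≤ n) {g : V n → ℝ} (hs : ∑ x, g x = 0)
    (hg : ∀ x, x ∉ bx (p.1 + m * r, p.2 + m * r) r → g x = 0)
    (hg1 : ∀ x, |g x| ≤ 1 / (r : ℝ) ^ 2) {K : ℝ} (hK1 : 1 ≤ K) (hK : AnnK N b (m * r) (m * r) r K) :
    ex b (eb p (N + 1)) ((bx p (N + 1))ᶜ ∪ {cnr p}) (fun _ => 0) (fun h => pr g h ^ 2) -
        ex b (inn n) (bx p (N + 1))ᶜ (fun _ => 0) (fun h => pr g h ^ 2) ≤
      (1 + 76800 * Real.exp b) * √(K - 1) := by
  classical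
  have hmr : m * r + (m * r + r) = N + 1 := by rw [hN]; ring
  have hmr1 : 1 ≤ m * r := Nat.one_le_iff_ne_zero.2 (by positivity)
  have hX : ((bx (n := n) p (N + 1))ᶜ).Nonempty := by
    refine ⟨vp n 0 0, ?_⟩
    rw [Finset.mem_compl, mem_bx]
    unfold vp
    simp only
    rw [vc (by omega)]
    omega
  have i1 := prob_mw hb N
  have i2 := prob_mv (n := n) hb hX
  -- coordinates
  set q : ℕ × ℕ := (p.1 + m * r, p.2 + m * r) with hq
  have hq1 : q.1 + r ≤ n := by simp only [hq]; omega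
  have hq2 : q.2 + r ≤ n := by simp only [hq]; omega
  have hem : ∀ i j, i < r → j < r →
      vp n (q.1 + i) (q.2 + j) = em n N p (fp N (m * r + i) (m * r + j)) := by
    intro i j hi hj
    rw [em_fp (by omega) (by omega)]
    simp only [hq]
    rw [add_assoc, add_assoc]
  have hprx : ∀ h : Fa N → ℤ, pr g (xt n p h) = ∑ i ∈ Finset.range r, ∑ j ∈ Finset.range r,
      g (vp n (q.1 + i) (q.2 + j)) * (h (fp N (m * r + i) (m * r + j)) : ℝ) := by
    intro h
    rw [pr_coord hq1 hq2 hg]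
    refine Finset.sum_congr rfl fun i hi => Finset.sum_congr rfl fun j hj => ?_
    rw [Finset.mem_range] at hi hj
    congr 1
    rw [hem i j hi hj, xt_em (by omega) (by omega)]
  -- the flow in the wired box
  have hgr : IsGrid (brt (N := N)) blf (fun i j => fp N (m * r + i) (m * r + j)) r r :=
    (grid_hgt N).shift (by omega) (by omega)
  have hsum0 : ∑ i ∈ Finset.range r, ∑ j ∈ Finset.range r, g (vp n (q.1 + i) (q.2 + j)) = 0 := by
    rw [← sum_coord hq1 hq2 hg, hs]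
  have hM := neut_mom4 (conn_hgt N) (fun _ => hb) (fun _ => le_rfl) hb
    (Set.singleton_nonempty ((0, 0) : Fa N)) hr hgr (fun i j => g (vp n (q.1 + i) (q.2 + j)))
    hsum0 (fun i j _ _ => hg1 _)
  -- integrability in the zero box
  have hgrV : IsGrid (ss n) (tt n) (fun i j => vp n (q.1 + i) (q.2 + j)) r r :=
    grid_V.shift hq1 hq2
  have hMV := neut_mom4 (conn_V (n := n)) (fun _ => hb) (fun _ => le_rfl) hb
    (X := ((bx (n := n) p (N + 1))ᶜ : Finset (V n))) (by exact_mod_cast hX) hr hgrV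
    (fun i j => g (vp n (q.1 + i) (q.2 + j))) hsum0 (fun i j _ _ => hg1 _)
  rw [ex_eb hb (by omega) (by omega), ex_inn hb]
  have key := dw_abs (μ := mw N b) (μ' := mv n b (bx p (N + 1))ᶜ)
    (V := fun h => pr g (xt n p h) ^ 2) (V' := fun h => pr g h ^ 2) (M := 76800 * Real.exp b)
    (K := K) (fun h => sq_nonneg _) (fun h => sq_nonneg _) ?_ ?_ ?_ ?_ hK1 ?_
  · exact key
  · simp only [hprx]
    exact hM.1 2
  · simp only [pr_coord hq1 hq2 hg]
    exact hMV.1 2
  · have := hM.1 4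
    simp only [hprx, ← pow_mul]
    exact this
  · simp only [hprx, ← pow_mul]
    exact hM.2
  · intro l hl _
    -- the functional on the faces
    set g' : Fa N → ℝ := fun f => g (em n N p f) with hg'
    have hprg : ∀ h : Fa N → ℤ, ∑ f, g' f * (h f : ℝ) = pr g (xt n p h) := by
      intro h
      have e1 : ∑ f, g' f * (h f : ℝ) = ∑ f : Fa N, (fun x => g x * (xt n p h x : ℝ)) (em n N p f) := by
        refine Finset.sum_congr rfl fun f _ => ?_
        simp only [hg']
        rw [xt_em (by omega) (by omega)]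
      rw [e1, sum_em (by omega) (by omega) fun x => g x * (xt n p h x : ℝ)]
      unfold pr
      apply Finset.sum_subset (Finset.subset_univ _)
      intro x _ hx
      rw [xt_off (by omega) (by omega) h hx]
      simp
    have hs' : ∑ f, g' f = 0 := by
      rw [hg', sum_em (by omega) (by omega) g, ← hs]
      apply Finset.sum_subset (Finset.subset_univ _)
      intro x _ hx
      apply hg
      rw [mem_bx] at hx ⊢
      simp only [hq]
      omega
    have hg0 : ∀ f, ¬ inSq (m * r) (m * r) r f → g' f = 0 := by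
      intro f hf
      simp only [hg']
      apply hg
      rw [mem_bx]
      unfold em
      have a1 := f.1.2
      have a2 := f.2.2
      simp only
      rw [vc (by omega), vc (by omega)]
      unfold inSq at hf
      simp only [hq]
      omega
    have hI := isand_exp (N := N) (p := m * r) (q := m * r) (r := r) hb (by omega) hmr1 (by omega)
      hmr1 (by omega) hK (g := g') hg0 hs' hl.le
    simp only [hprg] at hI
    have hZ : 0 < ∑' h : Fa N → ℤ, W0 N b h := by
      obtain ⟨c, hc, hcF⟩ := sum_inn (n := n) hb h1 h2 hp1 hp2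
      have h3 := hcF fun _ => 1
      rw [← ZZ_V (n := n)] at h3
      simp only [mul_one] at h3
      have h4 := ZZ_pos (conn_V (n := n)) (fun _ => hb)
        (X := ((bx (n := n) p (N + 1))ᶜ : Finset (V n))) (by exact_mod_cast hX)
      rw [h3] at h4
      exact (mul_pos_iff_of_pos_left hc).1 h4
    have hZw : 0 < ∑' h : Hgt N, hWt N b h.1 := by
      have h4 := ZZ_pos (conn_hgt N) (fun _ => hb) (Set.singleton_nonempty ((0, 0) : Fa N))
      rw [ZZ_hgt hb] at h4
      simpa only [mul_one] using h4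
    rw [← ex_inn hb, ex_W0 hb h1 h2 hp1 hp2, integral_mw hb, ← mul_div_assoc,
      div_le_div_iff₀ hZ hZw]
    calc _ ≤ K * ((∑' h : Fa N → ℤ, W0 N b h) *
        ∑' h : Hgt N, hWt N b h.1 * Real.exp (-(l * pr g (xt n p h.1) ^ 2))) := hI
      _ = _ := by ring

/-- **IDWI** from the constants of the annuli -/
theorem idwi {b : ℝ} (hb : 0 ≤ b) (hK : KANN b) : IDWI b := by
  obtain ⟨C, c, hC, hc, hK⟩ := hK
  refine ⟨(1 + 76800 * Real.exp b) * √C, c / 2, by positivity, by positivity, ?_⟩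
  intro n _ r m p hr hm hp1 hp2 h1 h2 g hs hg hg1
  obtain ⟨K, hK1, hK2, hK3⟩ := hK r m hr hm
  have hpos : 1 ≤ (2 * m + 1) * r := Nat.one_le_iff_ne_zero.2 (by positivity)
  obtain ⟨N, hN⟩ : ∃ N, (2 * m + 1) * r = N + 1 := ⟨(2 * m + 1) * r - 1, by omega⟩
  rw [hN] at h1 h2 ⊢
  rw [hN, Nat.add_sub_cancel] at hK3
  have h := idwi_one hb hr hm hN.symm hp1 hp2 h1 h2 hs hg hg1 hK1 hK3
  have hm0 : (0 : ℝ) < m := by exact_mod_cast hm
  refine h.trans ?_
  rw [mul_assoc]
  refine mul_le_mul_of_nonneg_left ?_ (by positivity)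
  have e1 : √C * (m : ℝ) ^ (-(c / 2)) = √(C * (m : ℝ) ^ (-c)) := by
    rw [Real.sqrt_mul hC.le, Real.sqrt_eq_rpow ((m : ℝ) ^ (-c)), ← Real.rpow_mul hm0.le]
    congr 2
    ring
  rw [e1]
  exact Real.sqrt_le_sqrt (by linarith)

end Vale.Agent.P159.TM.H928
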