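import Vale.Agent.P159.TM.H928.Idwi

/-!
P159, row ZM: fourth moments with zero boundary conditions outside a square `bx p L`:
neutral functionals on a square of side `r`, and averages over cells of side `q`.
-/

open MeasureTheory
open scoped BigOperators

namespace Vale.Agent.P159.TM.H928

open Vale.Agent.P159.T1 Vale.Agent.P159.T1.H934 Vale.Agent.P159.T1.H910
open Vale.Agent.P159.TM.SpecI Vale.Agent.P159.TM.H574

section left

variable {V E : Type} [Fintype E] {s t : E → V}

/-- **transport to the left**: heights vanish on the column `0` -/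
theorem flow_left {pos : ℕ → ℕ → V} {l q : ℕ} (hg : IsGrid s t pos (l + 1) q)
    (φ : ℕ → ℕ → ℝ) {κ : ℝ} (hκ : 0 ≤ κ)
    (hφ : ∀ k j, k < l → j < q → |∑ i ∈ Finset.Ico (k + 1) (l + 1), φ i j| ≤ κ) :
    ∃ a : E → ℝ, (∀ h : V → ℤ, (∀ j, j < q → h (pos 0 j) = 0) →
      ∑ i ∈ Finset.range (l + 1), ∑ j ∈ Finset.range q, φ i j * (h (pos i j) : ℝ) =
        ∑ e, a e * (grd s t h e : ℝ)) ∧ (∀ e, |a e| ≤ κ) ∧ ∑ e, a e ^ 2 ≤ l * (q * κ ^ 2) := by
  obtain ⟨a, a1, a2, a3⟩ := flow_gen (p := l) (q := q) hg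
    (fun k j => ∑ i ∈ Finset.Ico (k + 1) (l + 1), φ i j) hκ hφ
  refine ⟨a, fun h h0 => ?_, a2, ?_⟩
  · rw [← a1 h, Finset.sum_comm, Finset.sum_comm (s := Finset.range l)]
    refine Finset.sum_congr rfl fun j hj => ?_
    rw [Finset.mem_range] at hj
    -- one row
    have row : ∀ (f u : ℕ → ℝ), f 0 = 0 → ∑ i ∈ Finset.range (l + 1), u i * f i =
        ∑ k ∈ Finset.range l, (∑ i ∈ Finset.Ico (k + 1) (l + 1), u i) * (f (k + 1) - f k) := by
      intro f u hf
      have h1 := abel l u f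
      have h2 : ∀ k ∈ Finset.range l, (-∑ i ∈ Finset.range (k + 1), u i) * (f (k + 1) - f k) =
          (∑ i ∈ Finset.Ico (k + 1) (l + 1), u i) * (f (k + 1) - f k) -
            (∑ i ∈ Finset.range (l + 1), u i) * (f (k + 1) - f k) := by
        intro k hk
        rw [Finset.mem_range] at hk
        rw [Finset.sum_Ico_eq_sub _ (by omega)]
        ring
      rw [h1, Finset.sum_congr rfl h2, Finset.sum_sub_distrib, ← Finset.mul_sum,
        Finset.sum_range_sub f, hf]
      ring
    exact row (fun i => (h (pos i j) : ℝ)) (fun i => φ i j) (by rw [h0 j hj]; simp)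
  · rw [a3]
    calc ∑ k ∈ Finset.range l, ∑ j ∈ Finset.range q, (∑ i ∈ Finset.Ico (k + 1) (l + 1), φ i j) ^ 2
        ≤ ∑ _k ∈ Finset.range l, ∑ _j ∈ Finset.range q, κ ^ 2 := by
          refine Finset.sum_le_sum fun k hk => Finset.sum_le_sum fun j hj => ?_
          rw [← sq_abs]
          have := hφ k j (Finset.mem_range.1 hk) (Finset.mem_range.1 hj)
          gcongr
      _ = l * (q * κ ^ 2) := by
          rw [Finset.sum_const, Finset.sum_const, Finset.card_range, Finset.card_range,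
            nsmul_eq_mul, nsmul_eq_mul]

end left

section zm

variable {n : ℕ} [NeZero n] {b : ℝ}

lemma mv_congr (hb : 0 ≤ b) {X : Finset (V n)} {F G : (V n → ℤ) → ℝ}
    (h : ∀ k : V n → ℤ, (∀ v ∈ X, k v = 0) → F k = G k) :
    ∫ k, F k ∂(mv n b X) = ∫ k, G k ∂(mv n b X) := by
  rw [← ex_inn hb, ← ex_inn hb]
  unfold ex
  congr 1
  refine tsum_congr fun k => ?_
  rw [wt_zero]
  by_cases hk : ∀ v ∈ X, k v = 0
  · rw [h k hk]
  · rw [if_neg hk, zero_mul, zero_mul, zero_mul]

lemma mv_integrable_congr (hb : 0 ≤ b) {X : Finset (V n)} {F G : (V n → ℤ) → ℝ}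
    (h : ∀ k : V n → ℤ, (∀ v ∈ X, k v = 0) → F k = G k) (hF : Integrable F (mv n b X)) :
    Integrable G (mv n b X) := by
  rw [integrable_mz (fun _ => hb)] at hF ⊢
  refine hF.congr fun k => ?_
  by_cases hk : ∀ v ∈ (X : Set (V n)), k v = 0
  · rw [h k (by simpa using hk)]
  · unfold pw
    rw [if_neg hk, zero_div, zero_mul, zero_mul]

/-- **ZM1** -/
theorem zm_neut (hb : 0 ≤ b) {X : Finset (V n)} (hX : X.Nonempty) {q : ℕ × ℕ} {r : ℕ}
    (hr : 2 ≤ r) (h1 : q.1 + r ≤ n) (h2 : q.2 + r ≤ n) {g : V n → ℝ} (hs : ∑ x, g x = 0)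
    (hg : ∀ x, x ∉ bx q r → g x = 0) (hg1 : ∀ x, |g x| ≤ 1 / (r : ℝ) ^ 2) :
    (∀ k : ℕ, Integrable (fun h => pr g h ^ k) (mv n b X)) ∧
      ex b (inn n) X (fun _ => 0) (fun h => pr g h ^ 4) ≤ 76800 * Real.exp b := by
  have hgrV : IsGrid (ss n) (tt n) (fun i j => vp n (q.1 + i) (q.2 + j)) r r :=
    grid_V.shift h1 h2
  have hM := neut_mom4 (conn_V (n := n)) (fun _ => hb) (fun _ => le_rfl) hb
    (X := (X : Set (V n))) (by exact_mod_cast hX) hr hgrV
    (fun i j => g (vp n (q.1 + i) (q.2 + j))) (by rw [← sum_coord h1 h2 hg, hs])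
    (fun i j _ _ => hg1 _)
  rw [ex_inn hb]
  simp only [pr_coord h1 h2 hg]
  exact hM

omit [NeZero n] in
lemma avg_eq (q : ℕ) (c : ℕ × ℕ) (h : V n → ℤ) :
    SpecI.avg q c h = (∑ i ∈ Finset.range q, ∑ j ∈ Finset.range q,
      (h (vp n (c.1 * q + i) (c.2 * q + j)) : ℝ)) / (q : ℝ) ^ 2 := rfl

/-- **ZM2**: average over a cell of side `q` which meets `bx p L`, zero boundary conditions -/
theorem zm_avg (hb : 0 ≤ b) {p : ℕ × ℕ} {L : ℕ} (hp1 : 1 ≤ p.1)
    {q : ℕ} (hq : 0 < q) {c : ℕ × ℕ} (hc1 : (c.1 + 1) * q ≤ n) (hc2 : (c.2 + 1) * q ≤ n)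
    (hm : c.1 * q < p.1 + L) (hm2 : p.1 ≤ (c.1 + 1) * q) :
    (∀ k : ℕ, Integrable (fun h => SpecI.avg q c h ^ k) (mv n b (bx p L)ᶜ)) ∧
      ex b (inn n) (bx p L)ᶜ (fun _ => 0) (fun h => SpecI.avg q c h ^ 4) ≤
        768 * Real.exp b * ((L : ℝ) / q + 2) ^ 2 := by
  classical
  have hq0 : (0 : ℝ) < q := by exact_mod_cast hq
  have hn : 0 < n := Nat.pos_of_ne_zero (NeZero.ne n)
  have hX : ((bx (n := n) p L)ᶜ).Nonempty := by
    refine ⟨vp n 0 0, ?_⟩
    rw [Finset.mem_compl, mem_bx]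
    unfold vp
    simp only
    rw [vc hn]
    omega
  -- columns from `p.1 - 1` to `(c.1 + 1) q - 1`
  obtain ⟨u, hu⟩ : ∃ u, p.1 = u + 1 := ⟨p.1 - 1, by omega⟩
  obtain ⟨l, hl⟩ : ∃ l, (c.1 + 1) * q = u + (l + 1) := ⟨(c.1 + 1) * q - (u + 1), by omega⟩
  have hc1' : (c.1 + 1) * q = c.1 * q + q := by ring
  have hc2' : (c.2 + 1) * q = c.2 * q + q := by ring
  have hgr : IsGrid (ss n) (tt n) (fun i j => vp n (u + i) (c.2 * q + j)) (l + 1) q :=
    grid_V.shift (by omega) (by omega)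
  set φ : ℕ → ℕ → ℝ := fun i _ => if c.1 * q ≤ u + i then 1 / (q : ℝ) ^ 2 else 0 with hφ
  have hφ1 : ∀ k j, k < l → j < q → |∑ i ∈ Finset.Ico (k + 1) (l + 1), φ i j| ≤ 1 / (q : ℝ) := by
    intro k j hk hj
    have h0 : ∀ i j, 0 ≤ φ i j := by
      intro i j
      simp only [hφ]
      split_ifs
      · positivity
      · exact le_rfl
    rw [abs_of_nonneg (Finset.sum_nonneg fun i _ => h0 i j)]
    calc ∑ i ∈ Finset.Ico (k + 1) (l + 1), φ i j
        ≤ ∑ i ∈ Finset.range (l + 1), φ i j :=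
          Finset.sum_le_sum_of_subset_of_nonneg (fun i hi => by
            rw [Finset.mem_Ico] at hi
            rw [Finset.mem_range]
            exact hi.2) fun i _ _ => h0 i j
      _ = ((Finset.range (l + 1)).filter fun i => c.1 * q ≤ u + i).card • (1 / (q : ℝ) ^ 2) := by
          simp only [hφ]
          rw [← Finset.sum_filter, Finset.sum_const]
      _ ≤ q * (1 / (q : ℝ) ^ 2) := by
          rw [nsmul_eq_mul]
          refine mul_le_mul_of_nonneg_right ?_ (by positivity)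
          have h3 : (Finset.range (l + 1)).filter (fun i => c.1 * q ≤ u + i) ⊆
              Finset.Ico (l + 1 - q) (l + 1) := by
            intro i hi
            rw [Finset.mem_filter, Finset.mem_range] at hi
            rw [Finset.mem_Ico]
            omega
          have h4 := Finset.card_le_card h3
          rw [Nat.card_Ico] at h4
          exact_mod_cast h4.trans (by omega)
      _ = 1 / q := by field_simp
  obtain ⟨a, a1, a2, a3⟩ := flow_left hgr φ (κ := 1 / q) (by positivity) hφ1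
  -- the average is this functional
  have hav : ∀ h : V n → ℤ, (∀ v ∈ (bx p L)ᶜ, h v = 0) → SpecI.avg q c h = lf (ss n) (tt n) a h := by
    intro h hh
    have h0 : ∀ x y, x < n → y < n → x < p.1 → h (vp n x y) = 0 := by
      intro x y hx hy hxp
      apply hh
      rw [Finset.mem_compl, mem_bx]
      unfold vp
      simp only
      rw [vc hx]
      omega
    unfold lf
    rw [← a1 h (fun j hj => h0 _ _ (by omega) (by omega) (by omega)), avg_eq]
    -- sum over all the columns `u + i`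
    have e1 : ∑ i ∈ Finset.range (l + 1), ∑ j ∈ Finset.range q,
        φ i j * (h (vp n (u + i) (c.2 * q + j)) : ℝ) =
        ∑ x ∈ Finset.Ico u ((c.1 + 1) * q), if c.1 * q ≤ x then
          (∑ j ∈ Finset.range q, (h (vp n x (c.2 * q + j)) : ℝ)) / (q : ℝ) ^ 2 else 0 := by
      rw [hl, Finset.sum_Ico_eq_sum_range, Nat.add_sub_cancel_left]
      refine Finset.sum_congr rfl fun i _ => ?_
      simp only [hφ]
      split_ifs
      · rw [Finset.sum_div]
        exact Finset.sum_congr rfl fun j _ => by ring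
      · simp
    have e2 : (∑ i ∈ Finset.range q, ∑ j ∈ Finset.range q,
        (h (vp n (c.1 * q + i) (c.2 * q + j)) : ℝ)) / (q : ℝ) ^ 2 =
        ∑ x ∈ Finset.Ico (c.1 * q) ((c.1 + 1) * q),
          (∑ j ∈ Finset.range q, (h (vp n x (c.2 * q + j)) : ℝ)) / (q : ℝ) ^ 2 := by
      rw [hc1', Finset.sum_Ico_eq_sum_range, Nat.add_sub_cancel_left, Finset.sum_div]
    rw [e1, e2, ← Finset.sum_filter]
    rcases le_total u (c.1 * q) with h3 | h3
    · congr 1
      ext x
      simp only [Finset.mem_filter, Finset.mem_Ico]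
      omega
    · have h4 : (Finset.Ico u ((c.1 + 1) * q)).filter (fun x => c.1 * q ≤ x) =
          Finset.Ico u ((c.1 + 1) * q) := by
        ext x
        simp only [Finset.mem_filter, Finset.mem_Ico]
        omega
      rw [h4, ← Finset.sum_Ico_consecutive _ h3 (by omega : u ≤ (c.1 + 1) * q)]
      have h5 : ∑ x ∈ Finset.Ico (c.1 * q) u,
          (∑ j ∈ Finset.range q, (h (vp n x (c.2 * q + j)) : ℝ)) / (q : ℝ) ^ 2 = 0 := by
        refine Finset.sum_eq_zero fun x hx => ?_
        rw [Finset.mem_Ico] at hx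
        rw [Finset.sum_eq_zero, zero_div]
        intro j hj
        rw [Finset.mem_range] at hj
        rw [h0 x _ (by omega) (by omega) (by omega), Int.cast_zero]
      rw [h5, zero_add]
  have hA : ∑ e, a e ^ 2 ≤ (L : ℝ) / q + 2 := by
    refine a3.trans ?_
    have h3 : (l : ℝ) ≤ L + 2 * q := by
      have : l ≤ L + 2 * q := by omega
      exact_mod_cast this
    have e : (l : ℝ) * (q * (1 / (q : ℝ)) ^ 2) = l / q := by field_simp
    rw [e, div_add' _ _ _ hq0.ne']
    exact div_le_div_of_nonneg_right (by linarith) hq0.le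
  have hM := mom4_bare (conn_V (n := n)) (J := fun _ => b) (B := b) (fun _ => hb)
    (fun _ => le_rfl) hb (X := (((bx (n := n) p L)ᶜ : Finset (V n)) : Set (V n)))
    (by exact_mod_cast hX) (a := a) (A := (L : ℝ) / q + 2)
    (by have : (0 : ℝ) ≤ (L : ℝ) / q := by positivity
        linarith) (fun e => by
      refine (a2 e).trans ?_
      rw [div_le_iff₀ hq0]
      have : (1 : ℝ) ≤ q := by exact_mod_cast hq
      linarith) hA
  constructor
  · intro k
    refine mv_integrable_congr hb (F := fun h => lf (ss n) (tt n) a h ^ k) (fun h hh => ?_)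
      (integrable_lf_pow conn_V (fun _ => hb) (by exact_mod_cast hX) a k)
    rw [hav h hh]
  · rw [ex_inn hb, mv_congr hb (G := fun h => lf (ss n) (tt n) a h ^ 4) (fun h hh => by
      rw [hav h hh])]
    exact hM

end zm

end Vale.Agent.P159.TM.H928
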