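import Vale.Agent.P159.TM.H928.Zm
import Vale.Agent.P159.TM.H574.Zm

/-!
P159: the literal statement `ZM b` of `TM/H574/Zm.lean`.
-/

open MeasureTheory
open scoped BigOperators

namespace Vale.Agent.P159.TM.H928

open Vale.Agent.P159.TM.SpecI Vale.Agent.P159.TM.H574

/-- **ZM** -/
theorem zm {b : ℝ} (hb : 0 ≤ b) : ZM b := by
  refine ⟨76800 * Real.exp b, by positivity, ?_⟩
  intro n _ p L hp1 hp2 hn1 hn2
  have hX : ((bx (n := n) p L)ᶜ).Nonempty := by
    refine ⟨vp n 0 0, ?_⟩
    rw [Finset.mem_compl, mem_bx]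
    unfold vp
    simp only
    rw [vc (by omega)]
    omega
  refine ⟨?_, ?_⟩
  · intro r d hr h1 h2 h3 h4 g hs hg hg1
    exact (zm_neut hb hX hr (by omega) (by omega) hs hg hg1).2
  · intro q c hq hqL h1 h2 h3 h4
    have e1 : (c.1 + 1) * q = c.1 * q + q := by ring
    refine (zm_avg hb hp1 hq (by omega) (by omega) (by omega) (by omega)).2.trans ?_
    have hq0 : (0 : ℝ) < q := by exact_mod_cast hq
    have h5 : (1 : ℝ) ≤ (L : ℝ) / q := by
      rw [one_le_div hq0]
      exact_mod_cast hqL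
    have h6 : ((L : ℝ) / q + 2) ^ 2 ≤ 9 * ((L : ℝ) / q) ^ 2 := by nlinarith
    calc 768 * Real.exp b * ((L : ℝ) / q + 2) ^ 2
        ≤ 768 * Real.exp b * (9 * ((L : ℝ) / q) ^ 2) :=
          mul_le_mul_of_nonneg_left h6 (by positivity)
      _ = (6912 * Real.exp b) * ((L : ℝ) / q) ^ 2 := by ring
      _ ≤ _ := by
          have := Real.exp_pos b
          exact mul_le_mul_of_nonneg_right (by nlinarith) (by positivity)

end Vale.Agent.P159.TM.H928
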