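import Vale.Agent.P159.TM.H928.Flow

/-!
P159, row IMOM: child average minus parent average of the heights over squares.
-/

open scoped BigOperators

namespace Vale.Agent.P159.TM.H928

open Vale.Agent.P159.T1.H934

section child

variable {V E : Type} [Fintype E] {s t : E → V}

omit [Fintype E] in
lemma av_shift (pos : ℕ → ℕ → V) (a b c d p q : ℕ) (h : V → ℤ) :
    av (fun i j => pos (a + i) (b + j)) c d p q h = av pos (a + c) (b + d) p q h := by
  unfold av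
  simp only [add_assoc]

omit [Fintype E] in
lemma av_swap (pos : ℕ → ℕ → V) (a b p q : ℕ) (h : V → ℤ) :
    av (fun i j => pos j i) a b p q h = av pos b a q p h := by
  unfold av
  rw [Finset.sum_comm, mul_comm (p : ℝ) q]

omit [Fintype E] in
/-- the average over a square is the average of the four averages over its quarters -/
lemma av_four (pos : ℕ → ℕ → V) (a b m : ℕ) (hm : 0 < m) (h : V → ℤ) :
    av pos a b (2 * m) (2 * m) h = (av pos a b m m h + av pos (a + m) b m m h +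
      av pos a (b + m) m m h + av pos (a + m) (b + m) m m h) / 4 := by
  have hm0 : (m : ℝ) ≠ 0 := by exact_mod_cast hm.ne'
  have key : ∀ f : ℕ → ℝ, ∑ i ∈ Finset.range (2 * m), f i =
      ∑ i ∈ Finset.range m, f i + ∑ i ∈ Finset.range m, f (m + i) := by
    intro f
    rw [two_mul, Finset.sum_range_add]
  unfold av
  rw [key]
  simp only [key, Finset.sum_add_distrib]
  have e1 : ∀ i y, (h (pos (a + (m + i)) y) : ℝ) = h (pos (a + m + i) y) := by
    intro i y; rw [add_assoc]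
  have e2 : ∀ x j, (h (pos x (b + (m + j))) : ℝ) = h (pos x (b + m + j)) := by
    intro x j; rw [add_assoc b]
  simp only [e1, e2]
  push_cast
  field_simp
  ring

/-- horizontal neighbours anywhere -/
lemma flow_h {pos : ℕ → ℕ → V} {p q : ℕ} (hg : IsGrid s t pos p q) {m a b : ℕ} (hm : 0 < m)
    (ha : a + 2 * m ≤ p) (hb : b + m ≤ q) :
    ∃ x : E → ℝ, (∀ h : V → ℤ, av pos a b m m h - av pos (a + m) b m m h =
        ∑ e, x e * (grd s t h e : ℝ)) ∧ (∀ e, |x e| ≤ 1 / m) ∧ ∑ e, x e ^ 2 ≤ 2 := by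
  obtain ⟨x, h1, h2, h3⟩ := flow_hor hm (hg.shift ha hb)
  refine ⟨x, fun h => ?_, h2, h3⟩
  rw [← h1 h, av_shift, av_shift, add_zero, add_zero]

/-- vertical neighbours anywhere -/
lemma flow_v {pos : ℕ → ℕ → V} {p q : ℕ} (hg : IsGrid s t pos p q) {m a b : ℕ} (hm : 0 < m)
    (ha : a + m ≤ p) (hb : b + 2 * m ≤ q) :
    ∃ x : E → ℝ, (∀ h : V → ℤ, av pos a b m m h - av pos a (b + m) m m h =
        ∑ e, x e * (grd s t h e : ℝ)) ∧ (∀ e, |x e| ≤ 1 / m) ∧ ∑ e, x e ^ 2 ≤ 2 := by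
  obtain ⟨x, h1, h2, h3⟩ := flow_h hg.swap hm hb ha
  refine ⟨x, fun h => ?_, h2, h3⟩
  rw [← h1 h, av_swap pos b a, av_swap pos (b + m) a]

omit [Fintype E] in
lemma conv3 {σ u v w κ : ℝ} (hσ : |σ| = 1) (τ : ℝ) (hτ : |τ| = 1) (hu : |u| ≤ κ) (hv : |v| ≤ κ)
    (hw : |w| ≤ κ) : |σ * u / 2 + τ * (v + w) / 4| ≤ κ := by
  have h1 : |σ * u| ≤ κ := by rw [abs_mul, hσ, one_mul]; exact hu
  have h2 : |τ * v| ≤ κ := by rw [abs_mul, hτ, one_mul]; exact hv
  have h3 : |τ * w| ≤ κ := by rw [abs_mul, hτ, one_mul]; exact hw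
  rw [abs_le] at *
  constructor <;> nlinarith [h1.1, h1.2, h2.1, h2.2, h3.1, h3.2]

omit [Fintype E] in
lemma conv3_sq {σ τ u v w : ℝ} (hσ : |σ| = 1) (hτ : |τ| = 1) :
    (σ * u / 2 + τ * (v + w) / 4) ^ 2 ≤ u ^ 2 / 2 + v ^ 2 / 4 + w ^ 2 / 4 := by
  have h1 : σ ^ 2 = 1 := by rw [← sq_abs, hσ, one_pow]
  have h2 : τ ^ 2 = 1 := by rw [← sq_abs, hτ, one_pow]
  have h3 : (σ * τ) ^ 2 = 1 := by rw [mul_pow, h1, h2, one_mul]
  have h4 : (σ * u / 2 + τ * (v + w) / 4) ^ 2 =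
      u ^ 2 / 4 + (σ * τ) * (u * (v + w)) / 4 + (v + w) ^ 2 / 16 := by
    calc (σ * u / 2 + τ * (v + w) / 4) ^ 2 = σ ^ 2 * u ^ 2 / 4 + (σ * τ) * (u * (v + w)) / 4 +
          τ ^ 2 * (v + w) ^ 2 / 16 := by ring
      _ = _ := by rw [h1, h2]; ring
  rw [h4]
  have h5 : (σ * τ) * (u * (v + w)) ≤ u ^ 2 + (v + w) ^ 2 / 4 := by
    nlinarith [sq_nonneg (u - σ * τ * (v + w) / 2)]
  nlinarith [sq_nonneg (v - w)]

/-- **child average minus parent average**: `(α, β)` tells which quarter of the square of side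
`2 m` with the corner `(a, b)` -/
theorem flow_child {pos : ℕ → ℕ → V} {p q : ℕ} (hg : IsGrid s t pos p q) {m a b : ℕ}
    (hm : 0 < m) (ha : a + 2 * m ≤ p) (hb : b + 2 * m ≤ q) (α β : Bool) :
    ∃ x : E → ℝ, (∀ h : V → ℤ, av pos (a + bif α then m else 0) (b + bif β then m else 0) m m h -
        av pos a b (2 * m) (2 * m) h = ∑ e, x e * (grd s t h e : ℝ)) ∧
        (∀ e, |x e| ≤ 1 / m) ∧ ∑ e, x e ^ 2 ≤ 2 := by
  obtain ⟨u0, u1, u2, u3⟩ := flow_h hg hm ha (b := b + bif β then m else 0) (by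
    cases β
    · simp only [cond_false]; omega
    · simp only [cond_true]; omega)
  obtain ⟨v0, v1, v2, v3⟩ := flow_v hg hm (a := a) (by omega) hb
  obtain ⟨w0, w1, w2, w3⟩ := flow_v hg hm (a := a + m) (by omega) hb
  set σ : ℝ := bif α then -1 else 1 with hσ
  set τ : ℝ := bif β then -1 else 1 with hτ
  have s1 : |σ| = 1 := by cases α <;> simp [hσ]
  have t1 : |τ| = 1 := by cases β <;> simp [hτ]
  refine ⟨fun e => σ * u0 e / 2 + τ * (v0 e + w0 e) / 4, fun h => ?_, fun e => ?_, ?_⟩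
  · have e1 : ∑ e, (σ * u0 e / 2 + τ * (v0 e + w0 e) / 4) * (grd s t h e : ℝ) =
        σ / 2 * ∑ e, u0 e * (grd s t h e : ℝ) + τ / 4 * (∑ e, v0 e * (grd s t h e : ℝ) +
          ∑ e, w0 e * (grd s t h e : ℝ)) := by
      rw [← Finset.sum_add_distrib, Finset.mul_sum, Finset.mul_sum, ← Finset.sum_add_distrib]
      refine Finset.sum_congr rfl fun e _ => ?_
      ring
    rw [e1, ← u1 h, ← v1 h, ← w1 h, av_four pos a b m hm h]
    cases α <;> cases β <;> simp only [hσ, hτ, cond_true, cond_false, add_zero] <;> ring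
  · exact conv3 s1 τ t1 (u2 e) (v2 e) (w2 e)
  · calc ∑ e, (σ * u0 e / 2 + τ * (v0 e + w0 e) / 4) ^ 2
        ≤ ∑ e, (u0 e ^ 2 / 2 + v0 e ^ 2 / 4 + w0 e ^ 2 / 4) :=
          Finset.sum_le_sum fun e _ => conv3_sq s1 t1
      _ = (∑ e, u0 e ^ 2) / 2 + (∑ e, v0 e ^ 2) / 4 + (∑ e, w0 e ^ 2) / 4 := by
          rw [Finset.sum_add_distrib, Finset.sum_add_distrib, Finset.sum_div, Finset.sum_div,
            Finset.sum_div]
      _ ≤ 2 := by linarith

end child

end Vale.Agent.P159.TM.H928
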