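import Vale.Agent.P159.TM.H928.Zm
import Vale.Agent.P159.TM.H574.Cmp

/-!
P159, row MUV, part 1: the sum over the cells in the lower bound (3b).
-/

open MeasureTheory
open scoped BigOperators

namespace Vale.Agent.P159.TM.H928

open Vale.Agent.P159.T1 Vale.Agent.P159.T1.H934 Vale.Agent.P159.T1.H910
open Vale.Agent.P159.TM.SpecI Vale.Agent.P159.TM.H574

lemma ex_smul {n : ℕ} (b : ℝ) (es : Finset (V n × Bool)) (X : Finset (V n))
    (Q : (V n → ℤ) → ℝ) (c : ℝ) (F : (V n → ℤ) → ℝ) :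
    ex b es X Q (fun h => c * F h) = c * ex b es X Q F := by
  unfold ex
  rw [← mul_div_assoc, ← tsum_mul_left]
  congr 1
  exact tsum_congr fun h => by ring

section cells

variable {n : ℕ} [NeZero n] {b : ℝ}

lemma sqsq_le {A x y : ℝ} (hA : 0 < A) :
    x ^ 2 * y ^ 2 ≤ A / 2 * x ^ 4 + 1 / (2 * A) * y ^ 4 := by
  have h1 : 0 ≤ (A * x ^ 2 - y ^ 2) ^ 2 / (2 * A) := by positivity
  have h2 : (A * x ^ 2 - y ^ 2) ^ 2 / (2 * A) =
      A / 2 * x ^ 4 + 1 / (2 * A) * y ^ 4 - x ^ 2 * y ^ 2 := by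
    field_simp
    ring
  linarith

/-- a cell which meets the square -/
lemma cell_in (hb : 0 ≤ b) {p : ℕ × ℕ} {L : ℕ} (hp1 : 1 ≤ p.1) {q : ℕ} (hq : 0 < q) {c : ℕ × ℕ}
    (hc1 : (c.1 + 1) * q ≤ n) (hc2 : (c.2 + 1) * q ≤ n) (hm : c.1 * q < p.1 + L)
    (hm2 : p.1 ≤ (c.1 + 1) * q) {g : V n → ℝ}
    (hZ : ∀ k : ℕ, Integrable (fun h => pr g h ^ k) (mv n b (bx p L)ᶜ))
    (hZ2 : ∫ h, pr g h ^ 4 ∂(mv n b (bx p L)ᶜ) ≤ 76800 * Real.exp b) :
    Integrable (fun h => pr g h ^ 2 * SpecI.avg q c h ^ 2) (mv n b (bx p L)ᶜ) ∧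
      ∫ h, pr g h ^ 2 * SpecI.avg q c h ^ 2 ∂(mv n b (bx p L)ᶜ) ≤
        38784 * Real.exp b * ((L : ℝ) / q + 2) := by
  obtain ⟨hY, hY2⟩ := zm_avg (n := n) hb (p := p) (L := L) hp1 hq hc1 hc2 hm hm2
  rw [ex_inn hb] at hY2
  set A : ℝ := (L : ℝ) / q + 2 with hA
  have hA0 : 0 < A := by positivity
  have i4 : Integrable (fun h : V n → ℤ => A / 2 * pr g h ^ 4 +
      1 / (2 * A) * SpecI.avg q c h ^ 4) (mv n b (bx p L)ᶜ) :=
    ((hZ 4).const_mul _).add ((hY 4).const_mul _)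
  have i2 : Integrable (fun h : V n → ℤ => pr g h ^ 2 * SpecI.avg q c h ^ 2)
      (mv n b (bx p L)ᶜ) := by
    refine i4.mono' (measurable_of_countable _).aestronglyMeasurable
      (Filter.Eventually.of_forall fun h => ?_)
    rw [Real.norm_eq_abs, abs_of_nonneg (by positivity)]
    exact sqsq_le hA0
  refine ⟨i2, (integral_mono i2 i4 fun h => sqsq_le hA0).trans ?_⟩
  rw [integral_add ((hZ 4).const_mul _) ((hY 4).const_mul _), integral_const_mul,
    integral_const_mul]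
  calc A / 2 * ∫ h, pr g h ^ 4 ∂(mv n b (bx p L)ᶜ) +
        1 / (2 * A) * ∫ h, SpecI.avg q c h ^ 4 ∂(mv n b (bx p L)ᶜ)
      ≤ A / 2 * (76800 * Real.exp b) + 1 / (2 * A) * (768 * Real.exp b * A ^ 2) :=
        add_le_add (mul_le_mul_of_nonneg_left hZ2 (by positivity))
          (mul_le_mul_of_nonneg_left hY2 (by positivity))
    _ = 38784 * Real.exp b * A := by field_simp; ring

/-- a cell which does not meet the square -/
lemma cell_out {p : ℕ × ℕ} {L : ℕ} {q : ℕ} {c : ℕ × ℕ} (hc1 : (c.1 + 1) * q ≤ n)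
    (hc2 : (c.2 + 1) * q ≤ n) (ho : (c.1 + 1) * q ≤ p.1 ∨ p.1 + L ≤ c.1 * q ∨
      (c.2 + 1) * q ≤ p.2 ∨ p.2 + L ≤ c.2 * q) {h : V n → ℤ}
    (hh : ∀ v ∈ (bx p L)ᶜ, h v = 0) : SpecI.avg q c h = 0 := by
  have e1 : (c.1 + 1) * q = c.1 * q + q := by ring
  have e2 : (c.2 + 1) * q = c.2 * q + q := by ring
  rw [avg_eq, Finset.sum_eq_zero, zero_div]
  intro i hi
  refine Finset.sum_eq_zero fun j hj => ?_
  rw [Finset.mem_range] at hi hj
  rw [hh, Int.cast_zero]
  rw [Finset.mem_compl, mem_bx]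
  unfold vp
  simp only
  rw [vc (by omega), vc (by omega)]
  omega

/-- **the sum over all the cells** -/
lemma cells_sum (hb : 0 ≤ b) {u : ℕ × ℕ} {w M q : ℕ} (hq : 0 < q) (hn : n = M * q)
    (hu1 : 1 ≤ u.1) (_hu2 : 1 ≤ u.2) {g : V n → ℝ}
    (hZ : ∀ k : ℕ, Integrable (fun h => pr g h ^ k)
      (mv n b (bx (u.1 * q, u.2 * q) (w * q))ᶜ))
    (hZ2 : ∫ h, pr g h ^ 4 ∂(mv n b (bx (u.1 * q, u.2 * q) (w * q))ᶜ) ≤ 76800 * Real.exp b) :
    ∫ h, pr g h ^ 2 * ∑ c ∈ Finset.range M ×ˢ Finset.range M, SpecI.avg q c h ^ 2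
      ∂(mv n b (bx (u.1 * q, u.2 * q) (w * q))ᶜ) ≤
      38784 * Real.exp b * ((w : ℝ) ^ 2 * (w + 2)) := by
  classical
  have hq0 : (0 : ℝ) < q := by exact_mod_cast hq
  set S : Finset (ℕ × ℕ) := Finset.Ico u.1 (u.1 + w) ×ˢ Finset.Ico u.2 (u.2 + w) with hS
  have hcell : ∀ c ∈ Finset.range M ×ˢ Finset.range M,
      Integrable (fun h : V n → ℤ => pr g h ^ 2 * SpecI.avg q c h ^ 2)
        (mv n b (bx (u.1 * q, u.2 * q) (w * q))ᶜ) ∧
      ∫ h, pr g h ^ 2 * SpecI.avg q c h ^ 2 ∂(mv n b (bx (u.1 * q, u.2 * q) (w * q))ᶜ) ≤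
        if c ∈ S then 38784 * Real.exp b * (w + 2) else 0 := by
    intro c hc
    rw [Finset.mem_product, Finset.mem_range, Finset.mem_range] at hc
    have hc1 : (c.1 + 1) * q ≤ n := hn ▸ Nat.mul_le_mul_right q hc.1
    have hc2 : (c.2 + 1) * q ≤ n := hn ▸ Nat.mul_le_mul_right q hc.2
    by_cases hcS : c ∈ S
    · rw [if_pos hcS]
      rw [hS, Finset.mem_product, Finset.mem_Ico, Finset.mem_Ico] at hcS
      have h1 : c.1 * q < (u.1 * q, u.2 * q).1 + w * q := by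
        show c.1 * q < u.1 * q + w * q
        rw [← add_mul]
        exact Nat.mul_lt_mul_of_pos_right hcS.1.2 hq
      have h2 : (u.1 * q, u.2 * q).1 ≤ (c.1 + 1) * q :=
        Nat.mul_le_mul_right q (by omega)
      have h3 : 1 ≤ (u.1 * q, u.2 * q).1 := Nat.mul_pos hu1 hq
      have h := cell_in hb (L := w * q) h3 hq hc1 hc2 h1 h2 hZ hZ2
      have e : (((w * q : ℕ) : ℝ) / q + 2) = w + 2 := by
        push_cast
        field_simp
      rw [e] at h
      exact h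
    · rw [if_neg hcS]
      have ho : (c.1 + 1) * q ≤ u.1 * q ∨ u.1 * q + w * q ≤ c.1 * q ∨
          (c.2 + 1) * q ≤ u.2 * q ∨ u.2 * q + w * q ≤ c.2 * q := by
        rw [hS, Finset.mem_product, Finset.mem_Ico, Finset.mem_Ico] at hcS
        rw [← add_mul, ← add_mul]
        rcases lt_or_ge c.1 u.1 with h1 | h1
        · exact Or.inl (Nat.mul_le_mul_right q h1)
        rcases lt_or_ge c.1 (u.1 + w) with h2 | h2
        swap
        · exact Or.inr (Or.inl (Nat.mul_le_mul_right q h2))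
        rcases lt_or_ge c.2 u.2 with h3 | h3
        · exact Or.inr (Or.inr (Or.inl (Nat.mul_le_mul_right q h3)))
        · exact Or.inr (Or.inr (Or.inr (Nat.mul_le_mul_right q (by omega))))
      have h0 := fun (h : V n → ℤ) (hh : ∀ v ∈ (bx (u.1 * q, u.2 * q) (w * q))ᶜ, h v = 0) =>
        cell_out (p := (u.1 * q, u.2 * q)) (L := w * q) hc1 hc2 ho hh
      constructor
      · refine mv_integrable_congr hb (F := fun _ => 0) (fun h hh => ?_) (integrable_zero _ _ _)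
        rw [h0 h hh]
        ring
      · rw [mv_congr hb (G := fun _ => 0) fun h hh => by rw [h0 h hh]; ring]
        simp
  simp only [Finset.mul_sum]
  rw [integral_finsetSum _ fun c hc => (hcell c hc).1]
  calc _ ≤ ∑ c ∈ Finset.range M ×ˢ Finset.range M,
        (if c ∈ S then 38784 * Real.exp b * ((w : ℝ) + 2) else 0) :=
        Finset.sum_le_sum fun c hc => (hcell c hc).2
    _ = (((Finset.range M ×ˢ Finset.range M).filter fun c => c ∈ S).card : ℝ) *
          (38784 * Real.exp b * ((w : ℝ) + 2)) := by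
        rw [← Finset.sum_filter, Finset.sum_const, nsmul_eq_mul]
    _ ≤ (S.card : ℝ) * (38784 * Real.exp b * ((w : ℝ) + 2)) := by
        refine mul_le_mul_of_nonneg_right ?_ (by positivity)
        exact_mod_cast Finset.card_le_card fun c hc => (Finset.mem_filter.1 hc).2
    _ = _ := by
        have hSc : (S.card : ℝ) = (w : ℝ) ^ 2 := by
          rw [hS, Finset.card_product, Nat.card_Ico, Nat.card_Ico, Nat.add_sub_cancel_left,
            Nat.add_sub_cancel_left]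
          push_cast
          ring
        rw [hSc]
        ring

end cells

end Vale.Agent.P159.TM.H928
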