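import Vale.Agent.P159.TM.H928.Mom

/-!
P159, row IDW: `Δ_W ≤ (1 + M) √(K - 1)`, where `K = exp T_tot` bounds the influence
`E' e^{-λ W} ≤ K E e^{-λ W}`, `0 < λ ≤ 1`, and `M ≥ E W ^ 2` is a bare moment.
-/

open MeasureTheory
open scoped BigOperators

namespace Vale.Agent.P159.TM.H928

open Vale.Agent.P159.T1 Vale.Agent.P159.T1.H934 Vale.Agent.P159.T1.H910

/-- the numerical core of (d) -/
theorem dw_num {v v' M K : ℝ} {φ φ' : ℝ → ℝ} (hv : 0 ≤ v) (hv' : 0 ≤ v') (hM : v ^ 2 ≤ M)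
    (h1 : ∀ l, 0 < l → l ≤ 1 → 1 - l * v' ≤ φ' l)
    (h2 : ∀ l, 0 < l → l ≤ 1 → φ l ≤ 1 - l * v + l ^ 2 / 2 * M)
    (h3 : ∀ l, 0 < l → l ≤ 1 → φ' l ≤ K * φ l) (hK : 1 ≤ K) :
    v - v' ≤ (1 + M) * √(K - 1) := by
  have hM0 : 0 ≤ M := (sq_nonneg v).trans hM
  have key : ∀ l, 0 < l → l ≤ 1 → l * (v - v') ≤ (K - 1) + K * (l ^ 2 / 2 * M) := by
    intro l hl hl1
    have a1 := (h1 l hl hl1).trans ((h3 l hl hl1).trans
      (mul_le_mul_of_nonneg_left (h2 l hl hl1) (by linarith)))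
    have a2 : l * v ≤ K * (l * v) := by
      have : 0 ≤ l * v := by positivity
      nlinarith
    nlinarith
  rcases le_or_gt 2 K with hK2 | hK2
  · have s1 : 1 ≤ √(K - 1) := by
      rw [Real.one_le_sqrt]
      linarith
    have s2 : v ≤ 1 + M := by nlinarith [sq_nonneg (v - 1)]
    calc v - v' ≤ 1 + M := by linarith
      _ ≤ (1 + M) * √(K - 1) := le_mul_of_one_le_right (by linarith) s1
  rcases hK.eq_or_lt with hK1 | hK1
  · rw [← hK1, sub_self, Real.sqrt_zero, mul_zero]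
    by_contra hcon
    push Not at hcon
    have hMp : 0 < M := by nlinarith
    have hl : 0 < min 1 ((v - v') / M) := lt_min one_pos (div_pos hcon hMp)
    have a1 := key _ hl (min_le_left _ _)
    rw [← hK1, sub_self, zero_add, one_mul] at a1
    set l := min 1 ((v - v') / M) with hl'
    have a2 : l ≤ (v - v') / M := min_le_right _ _
    rw [le_div_iff₀ hMp] at a2
    nlinarith
  · have hK1' : 0 < K - 1 := by linarith
    set l := √(K - 1) with hl
    have l0 : 0 < l := Real.sqrt_pos.2 hK1'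
    have l1 : l ≤ 1 := by
      rw [hl, Real.sqrt_le_one]
      linarith
    have l2 : l ^ 2 = K - 1 := Real.sq_sqrt hK1'.le
    have a1 := key l l0 l1
    have a2 : l * (v - v') ≤ l * ((1 + M) * l) := by
      have a3 : K * (l ^ 2 / 2 * M) ≤ l ^ 2 * M := by
        have : 0 ≤ l ^ 2 * M := by positivity
        nlinarith
      nlinarith
    exact le_of_mul_le_mul_left a2 l0

/-- **(d), abstract form**: two probability measures, `V, V' ≥ 0` -/
theorem dw_abs {Ω Ω' : Type*} [MeasurableSpace Ω] [MeasurableSpace Ω'] {μ : Measure Ω}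
    {μ' : Measure Ω'} [IsProbabilityMeasure μ] [IsProbabilityMeasure μ'] {V : Ω → ℝ} {V' : Ω' → ℝ}
    (hV : ∀ x, 0 ≤ V x) (hV' : ∀ x, 0 ≤ V' x) (iV : Integrable V μ) (iV' : Integrable V' μ')
    (iV2 : Integrable (fun x => V x ^ 2) μ) {M K : ℝ} (hM : ∫ x, V x ^ 2 ∂μ ≤ M) (hK1 : 1 ≤ K)
    (hK : ∀ l : ℝ, 0 < l → l ≤ 1 →
      ∫ x, Real.exp (-(l * V' x)) ∂μ' ≤ K * ∫ x, Real.exp (-(l * V x)) ∂μ) :
    ∫ x, V x ∂μ - ∫ x, V' x ∂μ' ≤ (1 + M) * √(K - 1) := by
  refine dw_num (φ := fun l => ∫ x, Real.exp (-(l * V x)) ∂μ)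
    (φ' := fun l => ∫ x, Real.exp (-(l * V' x)) ∂μ') (integral_nonneg hV) (integral_nonneg hV')
    ?_ (fun l hl hl1 => ?_) (fun l hl hl1 => ?_) hK hK1
  · refine le_trans ?_ hM
    have h1 : 0 ≤ ∫ x, (V x - ∫ y, V y ∂μ) ^ 2 ∂μ := integral_nonneg fun x => sq_nonneg _
    have h2 : ∫ x, (V x - ∫ y, V y ∂μ) ^ 2 ∂μ = ∫ x, V x ^ 2 ∂μ - (∫ y, V y ∂μ) ^ 2 := by
      have e1 : ∀ x, (V x - ∫ y, V y ∂μ) ^ 2 =
          V x ^ 2 - 2 * (∫ y, V y ∂μ) * V x + (∫ y, V y ∂μ) ^ 2 := fun x => by ring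
      have i1 : Integrable (fun x => V x ^ 2 - 2 * (∫ y, V y ∂μ) * V x) μ :=
        iV2.sub (iV.const_mul _)
      simp only [e1]
      rw [integral_add i1 (integrable_const _), integral_sub iV2 (iV.const_mul _),
        integral_const_mul, integral_const, probReal_univ, smul_eq_mul, one_mul]
      ring
    linarith
  · have e1 : ∫ x, (1 - l * V' x) ∂μ' = 1 - l * ∫ x, V' x ∂μ' := by
      rw [integral_sub (integrable_const _) (iV'.const_mul _), integral_const_mul, integral_const,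
        probReal_univ, smul_eq_mul, one_mul]
    rw [← e1]
    refine integral_mono ((integrable_const _).sub (iV'.const_mul _)) ?_ fun x => ?_
    · refine (integrable_const (1 : ℝ)).mono' ?_ (Filter.Eventually.of_forall fun x => ?_)
      · exact (Real.continuous_exp.comp_aestronglyMeasurable
          ((iV'.const_mul l).neg.aestronglyMeasurable))
      · rw [Real.norm_eq_abs, abs_of_pos (Real.exp_pos _), Real.exp_le_one_iff]
        have := mul_nonneg hl.le (hV' x)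
        linarith
    · have := Real.add_one_le_exp (-(l * V' x))
      show 1 - l * V' x ≤ _
      linarith
  · have e1 : ∫ x, (1 - l * V x + l ^ 2 / 2 * V x ^ 2) ∂μ =
        1 - l * ∫ x, V x ∂μ + l ^ 2 / 2 * ∫ x, V x ^ 2 ∂μ := by
      have i1 : Integrable (fun x => 1 - l * V x) μ := (integrable_const _).sub (iV.const_mul _)
      rw [integral_add i1 (iV2.const_mul _),
        integral_sub (integrable_const _) (iV.const_mul _), integral_const_mul,
        integral_const_mul, integral_const, probReal_univ, smul_eq_mul, one_mul]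
    have e2 : ∫ x, Real.exp (-(l * V x)) ∂μ ≤ ∫ x, (1 - l * V x + l ^ 2 / 2 * V x ^ 2) ∂μ := by
      refine integral_mono ?_ (((integrable_const _).sub (iV.const_mul _)).add
        (iV2.const_mul _)) fun x => ?_
      · refine (integrable_const (1 : ℝ)).mono' ?_ (Filter.Eventually.of_forall fun x => ?_)
        · exact (Real.continuous_exp.comp_aestronglyMeasurable
            ((iV.const_mul l).neg.aestronglyMeasurable))
        · rw [Real.norm_eq_abs, abs_of_pos (Real.exp_pos _), Real.exp_le_one_iff]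
          have := mul_nonneg hl.le (hV x)
          linarith
      · show Real.exp (-(l * V x)) ≤ 1 - l * V x + l ^ 2 / 2 * V x ^ 2
        have hy : 0 ≤ l * V x := mul_nonneg hl.le (hV x)
        have key : ∀ y : ℝ, 0 ≤ y → Real.exp (-y) ≤ 1 - y + y ^ 2 / 2 := by
          intro y hy
          have h5 := Real.quadratic_le_exp_of_nonneg hy
          have h6 : (0 : ℝ) < 1 - y + y ^ 2 / 2 := by nlinarith [sq_nonneg (y - 1)]
          refine le_of_mul_le_mul_right ?_ (Real.exp_pos y)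
          rw [← Real.exp_add, neg_add_cancel, Real.exp_zero]
          have h7 := mul_le_mul_of_nonneg_left h5 h6.le
          nlinarith [sq_nonneg (y ^ 2)]
        calc Real.exp (-(l * V x)) ≤ 1 - l * V x + (l * V x) ^ 2 / 2 := key _ hy
          _ = _ := by ring
    have e3 : l ^ 2 / 2 * ∫ x, V x ^ 2 ∂μ ≤ l ^ 2 / 2 * M :=
      mul_le_mul_of_nonneg_left hM (by positivity)
    show ∫ x, Real.exp (-(l * V x)) ∂μ ≤ 1 - l * ∫ x, V x ∂μ + l ^ 2 / 2 * M
    linarith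

/-! ### the two laws of the heights -/

section two

variable {V E V' E' : Type} [Fintype V] [Fintype E] [Fintype V'] [Fintype E']
  {s t : E → V} {s' t' : E' → V'} {J : E → ℝ} {J' : E' → ℝ} {B B' : ℝ} {X : Set V} {X' : Set V'}

/-- **IDW for a child-parent difference** (`J, X`: the larger law; `J', X'`: the smaller one) -/
theorem dw_Xc (hc : Conn s t) (hJ : ∀ e, 0 ≤ J e) (hJb : ∀ e, J e ≤ B) (hB : 0 ≤ B)
    (hX : X.Nonempty) (hc' : Conn s' t') (hJ' : ∀ e, 0 ≤ J' e) (hJb' : ∀ e, J' e ≤ B')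
    (hB' : 0 ≤ B') (hX' : X'.Nonempty)
    {pos : ℕ → ℕ → V} {p q : ℕ} (hg : IsGrid s t pos p q) {m a b : ℕ}
    (hm : 0 < m) (ha : a + 2 * m ≤ p) (hb : b + 2 * m ≤ q) (c : Bool × Bool)
    {pos' : ℕ → ℕ → V'} {p' q' : ℕ} (hg' : IsGrid s' t' pos' p' q') {a' b' : ℕ}
    (ha' : a' + 2 * m ≤ p') (hb' : b' + 2 * m ≤ q') {K : ℝ} (hK1 : 1 ≤ K)
    (hK : ∀ l : ℝ, 0 < l → l ≤ 1 →
      ∫ h, Real.exp (-(l * Xc pos' a' b' m c h ^ 2)) ∂(mz s' t' J' X') ≤
        K * ∫ h, Real.exp (-(l * Xc pos a b m c h ^ 2)) ∂(mz s t J X)) :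
    ∫ h, Xc pos a b m c h ^ 2 ∂(mz s t J X) - ∫ h, Xc pos' a' b' m c h ^ 2 ∂(mz s' t' J' X') ≤
      (1 + 48 * Real.exp (2 * B)) * √(K - 1) := by
  have := isProb_mz hc hJ hX
  have := isProb_mz hc' hJ' hX'
  have h1 := Xc_mom hc hJ hJb hB hX hg hm ha hb c
  have h2 := Xc_mom hc' hJ' hJb' hB' hX' hg' hm ha' hb' c
  have h3 := (h1 2).2
  have e : (2 * ((2 * 2).factorial : ℝ)) = 48 := by norm_num [Nat.factorial]
  rw [e] at h3
  have h4 : ∀ x : ℝ, x ^ (2 * 2) = (x ^ 2) ^ 2 := fun x => pow_mul x 2 2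
  simp only [h4] at h3
  refine dw_abs (fun h => sq_nonneg _) (fun h => sq_nonneg _) (h1 2).1 (h2 2).1 ?_ h3 hK1 hK
  have := (h1 (2 * 2)).1
  simpa only [h4] using this

/-- **IDW for the energy of a square** -/
theorem dw_Vq (hc : Conn s t) (hJ : ∀ e, 0 ≤ J e) (hJb : ∀ e, J e ≤ B) (hB : 0 ≤ B)
    (hX : X.Nonempty) (hc' : Conn s' t') (hJ' : ∀ e, 0 ≤ J' e) (hJb' : ∀ e, J' e ≤ B')
    (hB' : 0 ≤ B') (hX' : X'.Nonempty)
    {pos : ℕ → ℕ → V} {p q : ℕ} (hg : IsGrid s t pos p q) {m a b : ℕ}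
    (hm : 0 < m) (ha : a + 2 * m ≤ p) (hb : b + 2 * m ≤ q)
    {pos' : ℕ → ℕ → V'} {p' q' : ℕ} (hg' : IsGrid s' t' pos' p' q') {a' b' : ℕ}
    (ha' : a' + 2 * m ≤ p') (hb' : b' + 2 * m ≤ q') {K : ℝ} (hK1 : 1 ≤ K)
    (hK : ∀ l : ℝ, 0 < l → l ≤ 1 →
      ∫ h, Real.exp (-(l * Vq pos' a' b' m h)) ∂(mz s' t' J' X') ≤
        K * ∫ h, Real.exp (-(l * Vq pos a b m h)) ∂(mz s t J X)) :
    ∫ h, Vq pos a b m h ∂(mz s t J X) - ∫ h, Vq pos' a' b' m h ∂(mz s' t' J' X') ≤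
      (1 + 48 * Real.exp (2 * B)) * √(K - 1) := by
  have := isProb_mz hc hJ hX
  have := isProb_mz hc' hJ' hX'
  have h1 := Vq_mom hc hJ hJb hB hX hg hm ha hb
  have h2 := Vq_mom hc' hJ' hJb' hB' hX' hg' hm ha' hb'
  have h3 := (h1 2).2
  have e : (2 * ((2 * 2).factorial : ℝ)) = 48 := by norm_num [Nat.factorial]
  rw [e] at h3
  have i1 := (h1 1).1
  have i2 := (h2 1).1
  simp only [pow_one] at i1 i2
  exact dw_abs (fun h => Vq_nonneg _ _ _ _ _) (fun h => Vq_nonneg _ _ _ _ _) i1 i2 (h1 2).1 h3 hK1 hK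

end two

end Vale.Agent.P159.TM.H928
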