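import Vale.Agent.P159.TM.H928.Mom

/-!
P159, rows IDWI / ZM: flows and moments for every neutral functional `∑ g h` on a square of side
`r` with `|g| ≤ 1 / r ^ 2`.
-/

open MeasureTheory
open scoped BigOperators

namespace Vale.Agent.P159.TM.H928

open Vale.Agent.P159.T1 Vale.Agent.P159.T1.H934 Vale.Agent.P159.T1.H910

lemma abel (p : ℕ) (u f : ℕ → ℝ) : ∑ i ∈ Finset.range (p + 1), u i * f i =
    (∑ i ∈ Finset.range (p + 1), u i) * f p +
      ∑ k ∈ Finset.range p, (-∑ i ∈ Finset.range (k + 1), u i) * (f (k + 1) - f k) := by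
  induction p with
  | zero => simp
  | succ n ih =>
    rw [Finset.sum_range_succ, ih, Finset.sum_range_succ (fun i => u i) (n + 1),
      Finset.sum_range_succ (fun k => (-∑ i ∈ Finset.range (k + 1), u i) * (f (k + 1) - f k)) n]
    ring

section neut

variable {V E : Type} [Fintype E] {s t : E → V}

/-- **flow of a neutral density** -/
theorem flow_neutral {pos : ℕ → ℕ → V} {r : ℕ} (hr : 0 < r) (hg : IsGrid s t pos r r)
    (g : ℕ → ℕ → ℝ) (h0 : ∑ i ∈ Finset.range r, ∑ j ∈ Finset.range r, g i j = 0)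
    (h1 : ∀ i j, i < r → j < r → |g i j| ≤ 1 / (r : ℝ) ^ 2) :
    ∃ a : E → ℝ, (∀ h : V → ℤ, ∑ i ∈ Finset.range r, ∑ j ∈ Finset.range r,
        g i j * (h (pos i j) : ℝ) = ∑ e, a e * (grd s t h e : ℝ)) ∧ (∀ e, |a e| ≤ 3 / r) ∧
        ∑ e, a e ^ 2 ≤ 10 := by
  obtain ⟨q, rfl⟩ : ∃ q, r = q + 1 := ⟨r - 1, by omega⟩
  set R : ℝ := ((q + 1 : ℕ) : ℝ) with hR
  have hR0 : 0 < R := by rw [hR]; exact_mod_cast hr
  set ρ : ℕ → ℝ := fun j => ∑ i ∈ Finset.range (q + 1), g i j with hρ
  have hρ1 : ∀ j, j < q + 1 → |ρ j| ≤ 1 / R := by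
    intro j hj
    calc |ρ j| ≤ ∑ i ∈ Finset.range (q + 1), |g i j| := Finset.abs_sum_le_sum_abs _ _
      _ ≤ ∑ _i ∈ Finset.range (q + 1), 1 / R ^ 2 :=
          Finset.sum_le_sum fun i hi => h1 i j (Finset.mem_range.1 hi) hj
      _ = 1 / R := by
          rw [Finset.sum_const, Finset.card_range, nsmul_eq_mul, ← hR]
          field_simp
  have hu : ∀ i j, i < q + 1 → j < q + 1 → |g i j - ρ j / R| ≤ 2 / R ^ 2 := by
    intro i j hi hj
    calc |g i j - ρ j / R| ≤ |g i j| + |ρ j / R| := abs_sub _ _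
      _ ≤ 1 / R ^ 2 + 1 / R / R := by
          refine add_le_add (h1 i j hi hj) ?_
          rw [abs_div, abs_of_pos hR0]
          exact div_le_div_of_nonneg_right (hρ1 j hj) hR0.le
      _ = 2 / R ^ 2 := by field_simp; ring
  have hx : ∀ k j, k < q → j < q + 1 →
      |-∑ i ∈ Finset.range (k + 1), (g i j - ρ j / R)| ≤ 2 / R := by
    intro k j hk hj
    rw [abs_neg]
    calc |∑ i ∈ Finset.range (k + 1), (g i j - ρ j / R)|
        ≤ ∑ i ∈ Finset.range (k + 1), |g i j - ρ j / R| := Finset.abs_sum_le_sum_abs _ _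
      _ ≤ ∑ _i ∈ Finset.range (k + 1), 2 / R ^ 2 :=
          Finset.sum_le_sum fun i hi => hu i j (by have := Finset.mem_range.1 hi; omega) hj
      _ = ((k + 1 : ℕ) : ℝ) * (2 / R ^ 2) := by
          rw [Finset.sum_const, Finset.card_range, nsmul_eq_mul]
      _ ≤ R * (2 / R ^ 2) := by
          refine mul_le_mul_of_nonneg_right ?_ (by positivity)
          rw [hR]; exact_mod_cast (by omega : k + 1 ≤ q + 1)
      _ = 2 / R := by field_simp
  have hy : ∀ k i, k < q → i < q + 1 →
      |-∑ j ∈ Finset.range (k + 1), ρ j / R| ≤ 1 / R := by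
    intro k i hk _
    rw [abs_neg]
    calc |∑ j ∈ Finset.range (k + 1), ρ j / R|
        ≤ ∑ j ∈ Finset.range (k + 1), |ρ j / R| := Finset.abs_sum_le_sum_abs _ _
      _ ≤ ∑ _j ∈ Finset.range (k + 1), 1 / R / R := Finset.sum_le_sum fun j hj => by
          rw [abs_div, abs_of_pos hR0]
          exact div_le_div_of_nonneg_right
            (hρ1 j (by have := Finset.mem_range.1 hj; omega)) hR0.le
      _ = ((k + 1 : ℕ) : ℝ) * (1 / R / R) := by
          rw [Finset.sum_const, Finset.card_range, nsmul_eq_mul]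
      _ ≤ R * (1 / R / R) := by
          refine mul_le_mul_of_nonneg_right ?_ (by positivity)
          rw [hR]; exact_mod_cast (by omega : k + 1 ≤ q + 1)
      _ = 1 / R := by field_simp
  obtain ⟨a, a1, a2, a3⟩ := flow_gen (p := q) (q := q + 1) hg
    (fun k j => -∑ i ∈ Finset.range (k + 1), (g i j - ρ j / R)) (κ := 2 / R) (by positivity) hx
  obtain ⟨b, b1, b2, b3⟩ := flow_gen (p := q) (q := q + 1) hg.swap
    (fun k _ => -∑ j ∈ Finset.range (k + 1), ρ j / R) (κ := 1 / R) (by positivity) hy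
  refine ⟨fun e => a e + b e, fun h => ?_, fun e => ?_, ?_⟩
  · have e1 : ∑ e, (a e + b e) * (grd s t h e : ℝ) =
        ∑ e, a e * (grd s t h e : ℝ) + ∑ e, b e * (grd s t h e : ℝ) := by
      rw [← Finset.sum_add_distrib]
      exact Finset.sum_congr rfl fun e _ => by ring
    rw [e1, ← a1 h, ← b1 h]
    -- rows
    have r1 : ∀ j ∈ Finset.range (q + 1), ∑ i ∈ Finset.range (q + 1),
        (g i j - ρ j / R) * (h (pos i j) : ℝ) = ∑ k ∈ Finset.range q,
          (-∑ i ∈ Finset.range (k + 1), (g i j - ρ j / R)) *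
            ((h (pos (k + 1) j) : ℝ) - h (pos k j)) := by
      intro j _
      rw [abel q (fun i => g i j - ρ j / R) fun i => (h (pos i j) : ℝ)]
      have z : ∑ i ∈ Finset.range (q + 1), (g i j - ρ j / R) = 0 := by
        rw [Finset.sum_sub_distrib, Finset.sum_const, Finset.card_range, nsmul_eq_mul, ← hR,
          mul_div_cancel₀ _ hR0.ne']
        exact sub_self _
      rw [z, zero_mul, zero_add]
    -- columns
    have c1 : ∀ i ∈ Finset.range (q + 1), ∑ j ∈ Finset.range (q + 1),
        (ρ j / R) * (h (pos i j) : ℝ) = ∑ k ∈ Finset.range q,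
          (-∑ j ∈ Finset.range (k + 1), ρ j / R) *
            ((h (pos i (k + 1)) : ℝ) - h (pos i k)) := by
      intro i _
      rw [abel q (fun j => ρ j / R) fun j => (h (pos i j) : ℝ)]
      have z : ∑ j ∈ Finset.range (q + 1), ρ j / R = 0 := by
        rw [← Finset.sum_div, hρ, Finset.sum_comm, h0, zero_div]
      rw [z, zero_mul, zero_add]
    have s1 : ∑ i ∈ Finset.range (q + 1), ∑ j ∈ Finset.range (q + 1),
        g i j * (h (pos i j) : ℝ) =
        ∑ j ∈ Finset.range (q + 1), ∑ i ∈ Finset.range (q + 1),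
          (g i j - ρ j / R) * (h (pos i j) : ℝ) +
        ∑ i ∈ Finset.range (q + 1), ∑ j ∈ Finset.range (q + 1),
          (ρ j / R) * (h (pos i j) : ℝ) := by
      rw [Finset.sum_comm (s := Finset.range (q + 1)) (t := Finset.range (q + 1))
        (f := fun j i => (g i j - ρ j / R) * (h (pos i j) : ℝ)), ← Finset.sum_add_distrib]
      refine Finset.sum_congr rfl fun i _ => ?_
      rw [← Finset.sum_add_distrib]
      exact Finset.sum_congr rfl fun j _ => by ring
    rw [s1, Finset.sum_congr rfl r1, Finset.sum_congr rfl c1]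
    congr 1
    · rw [Finset.sum_comm]
    · rw [Finset.sum_comm]
  · calc |a e + b e| ≤ |a e| + |b e| := abs_add_le _ _
      _ ≤ 2 / R + 1 / R := add_le_add (a2 e) (b2 e)
      _ = 3 / R := by ring
  · have ha : ∑ e, a e ^ 2 ≤ 4 := by
      rw [a3]
      calc ∑ k ∈ Finset.range q, ∑ j ∈ Finset.range (q + 1),
            (-∑ i ∈ Finset.range (k + 1), (g i j - ρ j / R)) ^ 2
          ≤ ∑ _k ∈ Finset.range q, ∑ _j ∈ Finset.range (q + 1), (2 / R) ^ 2 := by
            refine Finset.sum_le_sum fun k hk => Finset.sum_le_sum fun j hj => ?_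
            rw [← sq_abs]
            have := hx k j (Finset.mem_range.1 hk) (Finset.mem_range.1 hj)
            gcongr
        _ = (q : ℝ) * (R * (2 / R) ^ 2) := by
            rw [Finset.sum_const, Finset.sum_const, Finset.card_range, Finset.card_range,
              nsmul_eq_mul, nsmul_eq_mul]
        _ ≤ R * (R * (2 / R) ^ 2) := by
            refine mul_le_mul_of_nonneg_right ?_ (by positivity)
            rw [hR]; exact_mod_cast Nat.le_succ q
        _ = 4 := by field_simp; norm_num
    have hb : ∑ e, b e ^ 2 ≤ 1 := by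
      rw [b3]
      calc ∑ k ∈ Finset.range q, ∑ _j ∈ Finset.range (q + 1),
            (-∑ j ∈ Finset.range (k + 1), ρ j / R) ^ 2
          ≤ ∑ _k ∈ Finset.range q, ∑ _j ∈ Finset.range (q + 1), (1 / R) ^ 2 := by
            refine Finset.sum_le_sum fun k hk => Finset.sum_le_sum fun j hj => ?_
            rw [← sq_abs]
            have := hy k j (Finset.mem_range.1 hk) (Finset.mem_range.1 hj)
            gcongr
        _ = (q : ℝ) * (R * (1 / R) ^ 2) := by
            rw [Finset.sum_const, Finset.sum_const, Finset.card_range, Finset.card_range,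
              nsmul_eq_mul, nsmul_eq_mul]
        _ ≤ R * (R * (1 / R) ^ 2) := by
            refine mul_le_mul_of_nonneg_right ?_ (by positivity)
            rw [hR]; exact_mod_cast Nat.le_succ q
        _ = 1 := by field_simp
    calc ∑ e, (a e + b e) ^ 2 ≤ ∑ e, (2 * a e ^ 2 + 2 * b e ^ 2) :=
          Finset.sum_le_sum fun e _ => by nlinarith [sq_nonneg (a e - b e)]
      _ = 2 * ∑ e, a e ^ 2 + 2 * ∑ e, b e ^ 2 := by
          rw [Finset.sum_add_distrib, Finset.mul_sum, Finset.mul_sum]
      _ ≤ 10 := by linarith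

/-- flow from the average over a `q × q` square to the column `0` at distance `l` -/
theorem flow_far {pos : ℕ → ℕ → V} {q l : ℕ} (hq : 0 < q) (hg : IsGrid s t pos (l + q + 1) q) :
    ∃ a : E → ℝ, (∀ h : V → ℤ, av pos (l + 1) 0 q q h - av pos 0 0 1 q h =
        ∑ e, a e * (grd s t h e : ℝ)) ∧ (∀ e, |a e| ≤ 1 / q) ∧
        ∑ e, a e ^ 2 ≤ (l + q) / q := by
  have hq0 : (0 : ℝ) < q := by exact_mod_cast hq
  -- coefficient of the edge `k → k + 1`: the part of the square to the right of `k`
  set x : ℕ → ℝ := fun k => if k < l + 1 then 1 / (q : ℝ) else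
    ((l : ℝ) + q - k) / (q * q) with hx
  have hxa : ∀ k, k < l + q → |x k| ≤ 1 / q := by
    intro k hk
    simp only [hx]
    split_ifs with h
    · rw [abs_of_pos (by positivity)]
    · have h1 : ((l + 1 : ℕ) : ℝ) ≤ k := by exact_mod_cast (not_lt.1 h)
      have h2 : ((k + 1 : ℕ) : ℝ) ≤ ((l + q : ℕ) : ℝ) := by exact_mod_cast hk
      push_cast at h1 h2
      rw [abs_of_nonneg (div_nonneg (by linarith) (by positivity)), div_le_div_iff₀
        (by positivity) hq0]
      nlinarith
  obtain ⟨a, a1, a2, a3⟩ := flow_gen (p := l + q) (q := q) hg (fun k _ => x k) (κ := 1 / q)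
    (by positivity) (fun k _ hk _ => hxa k hk)
  refine ⟨a, fun h => ?_, a2, ?_⟩
  · rw [← a1 h]
    unfold av
    simp only [zero_add, Finset.range_one, Finset.sum_singleton, Nat.cast_one, one_mul]
    -- one row
    have row : ∀ f : ℕ → ℝ, (∑ i ∈ Finset.range q, f (l + 1 + i)) / (q * q) - f 0 / q =
        ∑ k ∈ Finset.range (l + q), x k * (f (k + 1) - f k) := by
      intro f
      have h1 : ∑ k ∈ Finset.range (l + q), x k * (f (k + 1) - f k) =
          ∑ k ∈ Finset.range (l + 1), 1 / (q : ℝ) * (f (k + 1) - f k) +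
          ∑ k ∈ Finset.range (q - 1), ((q : ℝ) - 1 - k) / (q * q) *
            (f (l + 1 + k + 1) - f (l + 1 + k)) := by
        have e : l + q = (l + 1) + (q - 1) := by omega
        rw [e, Finset.sum_range_add]
        congr 1
        · refine Finset.sum_congr rfl fun k hk => ?_
          simp only [hx]
          rw [if_pos (Finset.mem_range.1 hk)]
        · refine Finset.sum_congr rfl fun k _ => ?_
          simp only [hx]
          rw [if_neg (by omega)]
          push_cast
          ring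
      rw [h1, ← Finset.mul_sum, Finset.sum_range_sub f]
      have h2 : ∀ m : ℕ, ∑ i ∈ Finset.range m, f (l + 1 + i) = m * f (l + 1) +
          ∑ k ∈ Finset.range (m - 1), ((m : ℝ) - 1 - k) * (f (l + 1 + k + 1) - f (l + 1 + k)) := by
        intro m
        induction m with
        | zero => simp
        | succ m ih =>
          rcases m with _ | m
          · simp
          · rw [Finset.sum_range_succ, ih]
            have e3 : m + 1 + 1 - 1 = m + 1 := rfl
            have e4 : m + 1 - 1 = m := rfl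
            rw [e3, e4, Finset.sum_range_succ]
            have e5 : ∑ k ∈ Finset.range m, (((m + 1 + 1 : ℕ) : ℝ) - 1 - k) *
                (f (l + 1 + k + 1) - f (l + 1 + k)) =
                ∑ k ∈ Finset.range m, (((m + 1 : ℕ) : ℝ) - 1 - k) *
                  (f (l + 1 + k + 1) - f (l + 1 + k)) +
                ∑ k ∈ Finset.range m, (f (l + 1 + k + 1) - f (l + 1 + k)) := by
              rw [← Finset.sum_add_distrib]
              refine Finset.sum_congr rfl fun k _ => ?_
              push_cast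
              ring
            rw [e5]
            have e6 := Finset.sum_range_sub (fun k => f (l + 1 + k)) m
            simp only [← add_assoc, add_zero] at e6
            rw [e6]
            push_cast
            ring
      have h3 : ∑ k ∈ Finset.range (q - 1), ((q : ℝ) - 1 - k) / (q * q) *
            (f (l + 1 + k + 1) - f (l + 1 + k)) = (∑ k ∈ Finset.range (q - 1),
            ((q : ℝ) - 1 - k) * (f (l + 1 + k + 1) - f (l + 1 + k))) / (q * q) := by
        rw [Finset.sum_div]
        exact Finset.sum_congr rfl fun k _ => by ring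
      rw [h3, h2 q]
      field_simp
      ring
    rw [Finset.sum_comm, Finset.sum_div, Finset.sum_div, ← Finset.sum_sub_distrib,
      Finset.sum_comm (s := Finset.range (l + q))]
    refine Finset.sum_congr rfl fun j _ => ?_
    exact row fun i => (h (pos i j) : ℝ)
  · rw [a3]
    calc ∑ k ∈ Finset.range (l + q), ∑ _j ∈ Finset.range q, x k ^ 2
        ≤ ∑ _k ∈ Finset.range (l + q), ∑ _j ∈ Finset.range q, (1 / (q : ℝ)) ^ 2 := by
          refine Finset.sum_le_sum fun k hk => Finset.sum_le_sum fun j _ => ?_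
          rw [← sq_abs]
          have := hxa k (Finset.mem_range.1 hk)
          gcongr
      _ = ((l + q : ℕ) : ℝ) * (q * (1 / (q : ℝ)) ^ 2) := by
          rw [Finset.sum_const, Finset.sum_const, Finset.card_range, Finset.card_range,
            nsmul_eq_mul, nsmul_eq_mul]
      _ = (l + q) / q := by
          push_cast
          field_simp

end neut

section mom

variable {V E : Type} [Fintype V] [Fintype E] {s t : E → V} {J : E → ℝ} {B : ℝ} {X : Set V}

/-- bare fourth moment, general size of the flow -/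
theorem mom4_bare (hc : Conn s t) (hJ : ∀ e, 0 ≤ J e) (hJb : ∀ e, J e ≤ B) (hB : 0 ≤ B)
    (hX : X.Nonempty) {a : E → ℝ} {A : ℝ} (hA1 : 1 ≤ A) (ha : ∀ e, |a e| ≤ 2)
    (hA : ∑ e, a e ^ 2 ≤ A) :
    ∫ h, lf s t a h ^ 4 ∂(mz s t J X) ≤ 768 * Real.exp B * A ^ 2 := by
  set c : ℝ := (2 * √A)⁻¹ with hc'
  have hs : 1 ≤ √A := by rw [Real.one_le_sqrt]; exact hA1
  have hs0 : 0 < √A := by linarith
  have hc0 : 0 < c := by positivity
  have h1 := mom_bare hc hJ hJb hX (a := fun e => c * a e) (A := 1) (fun e => by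
    rw [abs_mul, abs_of_pos hc0, hc', inv_mul_le_iff₀ (by positivity)]
    have := ha e
    nlinarith) (by
      have e1 : ∑ e, (c * a e) ^ 2 = c ^ 2 * ∑ e, a e ^ 2 := by
        rw [Finset.mul_sum]
        exact Finset.sum_congr rfl fun e _ => by ring
      rw [e1]
      have e2 : c ^ 2 = (4 * A)⁻¹ := by
        rw [hc', inv_pow, mul_pow, Real.sq_sqrt (by linarith)]
        norm_num
      rw [e2, inv_mul_le_iff₀ (by linarith)]
      linarith) hB 2
  have e2 : ∀ h : V → ℤ, lf s t (fun e => c * a e) h ^ (2 * 2) = c ^ 4 * lf s t a h ^ 4 := by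
    intro h
    rw [lf_smul, mul_pow]
  have e3 : (2 * ((2 * 2).factorial : ℝ)) = 48 := by norm_num [Nat.factorial]
  simp only [e2] at h1
  rw [integral_const_mul, e3, mul_one] at h1
  have e4 : c ^ 4 * (16 * A ^ 2) = 1 := by
    have : c ^ 4 = (16 * A ^ 2)⁻¹ := by
      rw [hc', inv_pow]
      congr 1
      have : √A ^ 4 = A ^ 2 := by
        calc √A ^ 4 = (√A ^ 2) ^ 2 := by ring
          _ = A ^ 2 := by rw [Real.sq_sqrt (by linarith)]
      calc (2 * √A) ^ 4 = 16 * √A ^ 4 := by ring
        _ = _ := by rw [this]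
    rw [this, inv_mul_cancel₀ (by positivity)]
  calc ∫ h, lf s t a h ^ 4 ∂(mz s t J X)
      = (16 * A ^ 2) * (c ^ 4 * ∫ h, lf s t a h ^ 4 ∂(mz s t J X)) := by
        rw [← mul_assoc, mul_comm (16 * A ^ 2), e4, one_mul]
    _ ≤ (16 * A ^ 2) * (48 * Real.exp B) := mul_le_mul_of_nonneg_left h1 (by positivity)
    _ = _ := by ring

/-- **fourth moment of a neutral functional** on a square of side `r ≥ 2` -/
theorem neut_mom4 (hc : Conn s t) (hJ : ∀ e, 0 ≤ J e) (hJb : ∀ e, J e ≤ B) (hB : 0 ≤ B)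
    (hX : X.Nonempty) {pos : ℕ → ℕ → V} {r : ℕ} (hr : 2 ≤ r) (hg : IsGrid s t pos r r)
    (g : ℕ → ℕ → ℝ) (h0 : ∑ i ∈ Finset.range r, ∑ j ∈ Finset.range r, g i j = 0)
    (h1 : ∀ i j, i < r → j < r → |g i j| ≤ 1 / (r : ℝ) ^ 2) :
    (∀ n : ℕ, Integrable (fun h : V → ℤ => (∑ i ∈ Finset.range r, ∑ j ∈ Finset.range r,
        g i j * (h (pos i j) : ℝ)) ^ n) (mz s t J X)) ∧
      ∫ h, (∑ i ∈ Finset.range r, ∑ j ∈ Finset.range r, g i j * (h (pos i j) : ℝ)) ^ 4
        ∂(mz s t J X) ≤ 76800 * Real.exp B := by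
  obtain ⟨a, a1, a2, a3⟩ := flow_neutral (by omega) hg g h0 h1
  simp only [a1]
  refine ⟨fun n => integrable_lf_pow hc hJ hX a n, ?_⟩
  have h2 := mom4_bare hc hJ hJb hB hX (a := a) (A := 10) (by norm_num) (fun e => by
    refine (a2 e).trans ?_
    rw [div_le_iff₀ (by positivity)]
    have : (2 : ℝ) ≤ r := by exact_mod_cast hr
    linarith) a3
  refine h2.trans (le_of_eq (by ring))

end mom

end Vale.Agent.P159.TM.H928
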