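import Vale.Agent.P159.TM.H928.Hgt
import Vale.Agent.P159.TM.H928.Neut
import Vale.Agent.P159.TM.H574.Stmt
import Vale.Agent.P159.TM.H331.Box

/-!
P159, row IDWI: translation of the two models of `TM/H574/Stmt.lean` on a square of `V n` to the
wired box `Hgt N` and to the box with zero boundary conditions `W0 N`.
-/

open MeasureTheory
open scoped BigOperators

namespace Vale.Agent.P159.TM.H928

open Vale.Agent.P159.H353
open Vale.Agent.P159.R2.H254 (Fa Eb blf brt bcur Hgt hWt hWt_eq)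
open Vale.Agent.P159.TM.SpecI Vale.Agent.P159.TM.H574
open Vale.Agent.P159.TM.H331 (Bd he fcur W0)

section emb

variable {n : ℕ} [NeZero n] {N : ℕ}

omit [NeZero n] in
lemma vc {a : ℕ} (h : a < n) : ((a : ℕ) : ZMod n).val = a := ZMod.val_natCast_of_lt h

/-- the face `x` as a site of `V n` -/
def em (n N : ℕ) (p : ℕ × ℕ) (x : Fa N) : V n :=
  (((p.1 + x.1.val : ℕ) : ZMod n), ((p.2 + x.2.val : ℕ) : ZMod n))

variable {p : ℕ × ℕ}

omit [NeZero n] in
lemma em_inj (h1 : p.1 + (N + 1) ≤ n) (h2 : p.2 + (N + 1) ≤ n) :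
    Function.Injective (em n N p) := by
  rintro ⟨⟨a, ha⟩, ⟨b, hb⟩⟩ ⟨⟨a', ha'⟩, ⟨b', hb'⟩⟩ h
  unfold em at h
  rw [Prod.mk.injEq] at h
  have e1 := congrArg ZMod.val h.1
  have e2 := congrArg ZMod.val h.2
  simp only at e1 e2
  rw [vc (by omega), vc (by omega)] at e1 e2
  have : a = a' := by omega
  subst this
  have : b = b' := by omega
  subst this
  rfl

lemma mem_bx {x : V n} {s : ℕ} : x ∈ bx p s ↔
    p.1 ≤ x.1.val ∧ x.1.val < p.1 + s ∧ p.2 ≤ x.2.val ∧ x.2.val < p.2 + s := by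
  unfold bx
  simp

lemma em_mem (h1 : p.1 + (N + 1) ≤ n) (h2 : p.2 + (N + 1) ≤ n) (x : Fa N) :
    em n N p x ∈ bx p (N + 1) := by
  rw [mem_bx]
  unfold em
  have a := x.1.2
  have b := x.2.2
  simp only
  rw [vc (by omega), vc (by omega)]
  omega

lemma bx_em {v : V n} (hv : v ∈ bx p (N + 1)) : ∃ x : Fa N, em n N p x = v := by
  rw [mem_bx] at hv
  refine ⟨(⟨v.1.val - p.1, by omega⟩, ⟨v.2.val - p.2, by omega⟩), ?_⟩
  unfold em
  simp only
  have e1 : p.1 + (v.1.val - p.1) = v.1.val := by omega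
  have e2 : p.2 + (v.2.val - p.2) = v.2.val := by omega
  rw [e1, e2, ZMod.natCast_zmod_val, ZMod.natCast_zmod_val]

/-- heights on the faces, extended by `0` -/
noncomputable def xt (n : ℕ) (p : ℕ × ℕ) (g : Fa N → ℤ) : V n → ℤ :=
  Function.extend (em n N p) g 0

omit [NeZero n] in
lemma xt_em (h1 : p.1 + (N + 1) ≤ n) (h2 : p.2 + (N + 1) ≤ n) (g : Fa N → ℤ) (x : Fa N) :
    xt n p g (em n N p x) = g x := (em_inj h1 h2).extend_apply g 0 x

lemma xt_off (h1 : p.1 + (N + 1) ≤ n) (h2 : p.2 + (N + 1) ≤ n) (g : Fa N → ℤ) {v : V n}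
    (hv : v ∉ bx p (N + 1)) : xt n p g v = 0 := by
  unfold xt
  rw [Function.extend_apply']
  · rfl
  · rintro ⟨x, hx⟩
    exact hv (hx ▸ em_mem h1 h2 x)

omit [NeZero n] in
lemma xt_inj (h1 : p.1 + (N + 1) ≤ n) (h2 : p.2 + (N + 1) ≤ n) :
    Function.Injective (xt (N := N) n p) := by
  intro g g' h
  funext x
  rw [← xt_em h1 h2 g x, h, xt_em h1 h2]

lemma xt_surj (h1 : p.1 + (N + 1) ≤ n) (h2 : p.2 + (N + 1) ≤ n) {h : V n → ℤ}
    (hh : ∀ v, v ∉ bx p (N + 1) → h v = 0) : xt n p (fun x => h (em n N p x)) = h := by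
  funext v
  by_cases hv : v ∈ bx p (N + 1)
  · obtain ⟨x, rfl⟩ := bx_em hv
    rw [xt_em h1 h2]
  · rw [xt_off h1 h2 _ hv, hh v hv]

/-- values of the extension at natural coordinates -/
lemma xt_val (h1 : p.1 + (N + 1) ≤ n) (h2 : p.2 + (N + 1) ≤ n) (g : Fa N → ℤ) {a b : ℕ}
    (ha : a < n) (hb : b < n) :
    xt n p g (((a : ℕ) : ZMod n), ((b : ℕ) : ZMod n)) =
      if H : (p.1 ≤ a ∧ a < p.1 + (N + 1)) ∧ (p.2 ≤ b ∧ b < p.2 + (N + 1)) then
        g (⟨a - p.1, by omega⟩, ⟨b - p.2, by omega⟩) else 0 := by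
  split_ifs with H
  · rw [← xt_em h1 h2 g (⟨a - p.1, by omega⟩, ⟨b - p.2, by omega⟩)]
    congr 1
    unfold em
    simp only
    have e1 : p.1 + (a - p.1) = a := by omega
    have e2 : p.2 + (b - p.2) = b := by omega
    rw [e1, e2]
  · apply xt_off h1 h2
    rw [mem_bx]
    simp only
    rw [vc ha, vc hb]
    omega

/-! ### edges -/

omit [NeZero n] in
lemma tgt_false (x : V n) : tgt (x, false) = (x.1 + 1, x.2) := rfl

omit [NeZero n] in
lemma tgt_true (x : V n) : tgt (x, true) = (x.1, x.2 + 1) := rfl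

/-- the inner bonds as edges -/
def ee (n : ℕ) (p : ℕ × ℕ) : Eb N → V n × Bool
  | Sum.inl q => (em n N p (q.1.castSucc, q.2), false)
  | Sum.inr q => (em n N p (q.1, q.2.castSucc), true)

omit [NeZero n] in
lemma tgt_inl (q : Fin N × Fin (N + 1)) :
    tgt (ee (N := N) n p (Sum.inl q)) = em n N p (q.1.succ, q.2) := by
  unfold ee
  simp only
  rw [tgt_false]
  unfold em
  simp only [Fin.val_castSucc, Fin.val_succ]
  push_cast
  rw [add_assoc]

omit [NeZero n] in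
lemma tgt_inr (q : Fin (N + 1) × Fin N) :
    tgt (ee (N := N) n p (Sum.inr q)) = em n N p (q.1, q.2.succ) := by
  unfold ee
  simp only
  rw [tgt_true]
  unfold em
  simp only [Fin.val_castSucc, Fin.val_succ]
  push_cast
  rw [add_assoc]

omit [NeZero n] in
lemma ee_inj (h1 : p.1 + (N + 1) ≤ n) (h2 : p.2 + (N + 1) ≤ n) :
    Function.Injective (ee (N := N) n p) := by
  rintro (⟨a, b⟩ | ⟨a, b⟩) (⟨a', b'⟩ | ⟨a', b'⟩) h
  · unfold ee at h
    simp only [Prod.mk.injEq, and_true] at h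
    have := em_inj h1 h2 h
    simp only [Prod.mk.injEq, Fin.castSucc_inj] at this
    rw [this.1, this.2]
  · unfold ee at h
    simp at h
  · unfold ee at h
    simp at h
  · unfold ee at h
    simp only [Prod.mk.injEq, and_true] at h
    have := em_inj h1 h2 h
    simp only [Prod.mk.injEq, Fin.castSucc_inj] at this
    rw [this.1, this.2]

omit [NeZero n] in
lemma val_add_one {x : ZMod n} (h : x.val + 1 < n) : (x + 1).val = x.val + 1 := by
  have h1 : 1 < n := by omega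
  have : Fact (1 < n) := ⟨h1⟩
  rw [ZMod.val_add_of_lt]
  · rw [ZMod.val_one]
  · rw [ZMod.val_one]; exact h

lemma mem_inn {e : V n × Bool} : e ∈ inn n ↔
    (e.2 = true ∧ e.1.2.val + 1 < n) ∨ (e.2 = false ∧ e.1.1.val + 1 < n) := by
  unfold inn
  obtain ⟨x, d⟩ := e
  cases d <;> simp

lemma image_ee (h1 : p.1 + (N + 1) ≤ n) (h2 : p.2 + (N + 1) ≤ n) :
    Finset.univ.image (ee (N := N) n p) = eb p (N + 1) := by
  classical
  ext e
  simp only [Finset.mem_image, Finset.mem_univ, true_and]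
  unfold eb
  rw [Finset.mem_filter]
  constructor
  · rintro ⟨q | q, rfl⟩
    · refine ⟨?_, em_mem h1 h2 _, ?_⟩
      · rw [mem_inn]
        right
        refine ⟨rfl, ?_⟩
        show ((p.1 + q.1.castSucc.val : ℕ) : ZMod n).val + 1 < n
        have := q.1.2
        rw [Fin.val_castSucc, vc (by omega)]
        omega
      · rw [tgt_inl]
        exact em_mem h1 h2 _
    · refine ⟨?_, em_mem h1 h2 _, ?_⟩
      · rw [mem_inn]
        left
        refine ⟨rfl, ?_⟩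
        show ((p.2 + q.2.castSucc.val : ℕ) : ZMod n).val + 1 < n
        have := q.2.2
        rw [Fin.val_castSucc, vc (by omega)]
        omega
      · rw [tgt_inr]
        exact em_mem h1 h2 _
  · obtain ⟨x, d⟩ := e
    rintro ⟨hi, hx, ht⟩
    obtain ⟨⟨⟨a, ha⟩, ⟨c, hc⟩⟩, rfl⟩ := bx_em hx
    rw [mem_inn] at hi
    cases d
    · rw [tgt_false] at ht
      rcases hi with ⟨h, -⟩ | ⟨-, hi⟩
      · simp at h
      rw [mem_bx] at ht
      simp only at ht hi
      rw [val_add_one hi] at ht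
      unfold em at ht
      simp only at ht
      rw [vc (by omega)] at ht
      exact ⟨Sum.inl (⟨a, by omega⟩, ⟨c, hc⟩), rfl⟩
    · rw [tgt_true] at ht
      rcases hi with ⟨-, hi⟩ | ⟨h, -⟩
      swap
      · simp at h
      rw [mem_bx] at ht
      simp only at ht hi
      rw [val_add_one hi] at ht
      unfold em at ht
      simp only at ht
      rw [vc (by omega), vc (by omega)] at ht
      exact ⟨Sum.inr (⟨a, ha⟩, ⟨c, by omega⟩), rfl⟩

/-- **the weight of the wired box** -/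
lemma prod_eb {b : ℝ} (hb : 0 ≤ b) (h1 : p.1 + (N + 1) ≤ n) (h2 : p.2 + (N + 1) ≤ n)
    (g : Fa N → ℤ) :
    ∏ e ∈ eb (n := n) p (N + 1), wI b (xt n p g (tgt e) - xt n p g e.1) = hWt N b g := by
  classical
  rw [← image_ee h1 h2, Finset.prod_image (fun x _ y _ h => ee_inj h1 h2 h), hWt_eq hb]
  refine Finset.prod_congr rfl fun e _ => ?_
  rcases e with q | q
  · rw [tgt_inl]
    show wI b (xt n p g (em n N p (q.1.succ, q.2)) - xt n p g (em n N p (q.1.castSucc, q.2))) = _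
    rw [xt_em h1 h2, xt_em h1 h2, ← wI_neg]
    congr 1
    show -(g (q.1.succ, q.2) - g (q.1.castSucc, q.2)) =
      g (q.1.castSucc, q.2) - g (q.1.succ, q.2)
    ring
  · rw [tgt_inr]
    show wI b (xt n p g (em n N p (q.1, q.2.succ)) - xt n p g (em n N p (q.1, q.2.castSucc))) = _
    rw [xt_em h1 h2, xt_em h1 h2]
    rfl

/-! ### the bonds of the box with zero boundary conditions -/

/-- all the bonds of the box as edges -/
def ff (n : ℕ) (p : ℕ × ℕ) : Bd N → V n × Bool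
  | Sum.inl q => ((((p.1 + q.1.val : ℕ) : ZMod n), ((p.2 + q.2.val - 1 : ℕ) : ZMod n)), true)
  | Sum.inr q => ((((p.1 + q.1.val - 1 : ℕ) : ZMod n), ((p.2 + q.2.val : ℕ) : ZMod n)), false)

lemma he_xt (h1 : p.1 + (N + 1) + 1 ≤ n) (h2 : p.2 + (N + 1) + 1 ≤ n) (hp1 : 1 ≤ p.1)
    (hp2 : 1 ≤ p.2) (g : Fa N → ℤ) {a c : ℕ} (ha : a ≤ N + 2) (hc : c ≤ N + 2) :
    he g a c = xt n p g (((p.1 + a - 1 : ℕ) : ZMod n), ((p.2 + c - 1 : ℕ) : ZMod n)) := by
  rw [xt_val (by omega) (by omega) g (by omega) (by omega)]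
  unfold he
  by_cases H : (0 < a ∧ a < N + 2) ∧ (0 < c ∧ c < N + 2)
  · rw [dif_pos H, dif_pos (by omega)]
    have e1 : p.1 + a - 1 - p.1 = a - 1 := by omega
    have e2 : p.2 + c - 1 - p.2 = c - 1 := by omega
    simp only [e1, e2]
  · rw [dif_neg H, dif_neg (by omega)]

omit [NeZero n] in
lemma ff_inj (h1 : p.1 + (N + 1) + 1 ≤ n) (h2 : p.2 + (N + 1) + 1 ≤ n) (hp1 : 1 ≤ p.1)
    (hp2 : 1 ≤ p.2) : Function.Injective (ff (N := N) n p) := by
  rintro (⟨⟨a, ha⟩, ⟨c, hc⟩⟩ | ⟨⟨a, ha⟩, ⟨c, hc⟩⟩)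
    (⟨⟨a', ha'⟩, ⟨c', hc'⟩⟩ | ⟨⟨a', ha'⟩, ⟨c', hc'⟩⟩) h
  · unfold ff at h
    simp only [Prod.mk.injEq, and_true] at h
    have e1 := congrArg ZMod.val h.1
    have e2 := congrArg ZMod.val h.2
    rw [vc (by omega), vc (by omega)] at e1 e2
    have : a = a' := by omega
    subst this
    have : c = c' := by omega
    subst this
    rfl
  · unfold ff at h
    simp at h
  · unfold ff at h
    simp at h
  · unfold ff at h
    simp only [Prod.mk.injEq, and_true] at h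
    have e1 := congrArg ZMod.val h.1
    have e2 := congrArg ZMod.val h.2
    rw [vc (by omega), vc (by omega)] at e1 e2
    have : a = a' := by omega
    subst this
    have : c = c' := by omega
    subst this
    rfl

omit [NeZero n] in
lemma cast_succ' (a : ℕ) (ha : 1 ≤ a) : ((a - 1 : ℕ) : ZMod n) + 1 = ((a : ℕ) : ZMod n) := by
  obtain ⟨c, rfl⟩ : ∃ c, a = c + 1 := ⟨a - 1, by omega⟩
  simp

lemma ff_mem (h1 : p.1 + (N + 1) + 1 ≤ n) (h2 : p.2 + (N + 1) + 1 ≤ n) (hp1 : 1 ≤ p.1)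
    (hp2 : 1 ≤ p.2) (e : Bd N) : ff n p e ∈ inn n := by
  rw [mem_inn]
  rcases e with ⟨⟨a, ha⟩, ⟨c, hc⟩⟩ | ⟨⟨a, ha⟩, ⟨c, hc⟩⟩
  · left
    refine ⟨rfl, ?_⟩
    unfold ff
    simp only
    rw [vc (by omega)]
    omega
  · right
    refine ⟨rfl, ?_⟩
    unfold ff
    simp only
    rw [vc (by omega)]
    omega

/-- the differences along these edges -/
lemma ff_dif {b : ℝ} (h1 : p.1 + (N + 1) + 1 ≤ n) (h2 : p.2 + (N + 1) + 1 ≤ n) (hp1 : 1 ≤ p.1)
    (hp2 : 1 ≤ p.2) (g : Fa N → ℤ) (e : Bd N) :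
    wI b (xt n p g (tgt (ff n p e)) - xt n p g (ff n p e).1) = wI b (fcur g e) := by
  rcases e with ⟨⟨a, ha⟩, ⟨c, hc⟩⟩ | ⟨⟨a, ha⟩, ⟨c, hc⟩⟩
  · have e1 : tgt (ff (N := N) n p (Sum.inl (⟨a, ha⟩, ⟨c, hc⟩))) =
        (((p.1 + (a + 1) - 1 : ℕ) : ZMod n), ((p.2 + (c + 1) - 1 : ℕ) : ZMod n)) := by
      unfold ff
      simp only
      rw [tgt_true]
      simp only
      rw [cast_succ' _ (by omega)]
      rfl
    rw [e1, ← he_xt h1 h2 hp1 hp2 g (by omega) (by omega)]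
    have e2 : (ff (N := N) n p (Sum.inl (⟨a, ha⟩, ⟨c, hc⟩))).1 =
        (((p.1 + (a + 1) - 1 : ℕ) : ZMod n), ((p.2 + c - 1 : ℕ) : ZMod n)) := rfl
    rw [e2, ← he_xt h1 h2 hp1 hp2 g (by omega) (by omega)]
    rfl
  · have e1 : tgt (ff (N := N) n p (Sum.inr (⟨a, ha⟩, ⟨c, hc⟩))) =
        (((p.1 + (a + 1) - 1 : ℕ) : ZMod n), ((p.2 + (c + 1) - 1 : ℕ) : ZMod n)) := by
      unfold ff
      simp only
      rw [tgt_false]
      simp only
      rw [cast_succ' _ (by omega)]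
      rfl
    rw [e1, ← he_xt h1 h2 hp1 hp2 g (by omega) (by omega)]
    have e2 : (ff (N := N) n p (Sum.inr (⟨a, ha⟩, ⟨c, hc⟩))).1 =
        (((p.1 + a - 1 : ℕ) : ZMod n), ((p.2 + (c + 1) - 1 : ℕ) : ZMod n)) := rfl
    rw [e2, ← he_xt h1 h2 hp1 hp2 g (by omega) (by omega), ← wI_neg]
    congr 1
    show -(he g (a + 1) (c + 1) - he g a (c + 1)) = he g a (c + 1) - he g (a + 1) (c + 1)
    ring

lemma ff_cover (hp1 : 1 ≤ p.1) (hp2 : 1 ≤ p.2) {e : V n × Bool} (he : e ∈ inn n)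
    (hx : e.1 ∈ bx p (N + 1) ∨ tgt e ∈ bx p (N + 1)) : ∃ f : Bd N, ff n p f = e := by
  obtain ⟨x, d⟩ := e
  rw [mem_inn] at he
  cases d
  · rcases he with ⟨h, -⟩ | ⟨-, hi⟩
    · simp at h
    rw [tgt_false, mem_bx, mem_bx] at hx
    simp only at hx hi
    rw [val_add_one hi] at hx
    refine ⟨Sum.inr (⟨x.1.val + 1 - p.1, by omega⟩, ⟨x.2.val - p.2, by omega⟩), ?_⟩
    unfold ff
    simp only
    have e1 : p.1 + (x.1.val + 1 - p.1) - 1 = x.1.val := by omega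
    have e2 : p.2 + (x.2.val - p.2) = x.2.val := by omega
    rw [e1, e2, ZMod.natCast_zmod_val, ZMod.natCast_zmod_val]
  · rcases he with ⟨-, hi⟩ | ⟨h, -⟩
    swap
    · simp at h
    rw [tgt_true, mem_bx, mem_bx] at hx
    simp only at hx hi
    rw [val_add_one hi] at hx
    refine ⟨Sum.inl (⟨x.1.val - p.1, by omega⟩, ⟨x.2.val + 1 - p.2, by omega⟩), ?_⟩
    unfold ff
    simp only
    have e1 : p.2 + (x.2.val + 1 - p.2) - 1 = x.2.val := by omega
    have e2 : p.1 + (x.1.val - p.1) = x.1.val := by omega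
    rw [e1, e2, ZMod.natCast_zmod_val, ZMod.natCast_zmod_val]

/-- **the weight of the box with zero boundary conditions** -/
lemma prod_inn {b : ℝ} (hb : 0 ≤ b) (h1 : p.1 + (N + 1) + 1 ≤ n) (h2 : p.2 + (N + 1) + 1 ≤ n)
    (hp1 : 1 ≤ p.1) (hp2 : 1 ≤ p.2) :
    ∃ c : ℝ, 0 < c ∧ ∀ g : Fa N → ℤ,
      ∏ e ∈ inn n, wI b (xt n p g (tgt e) - xt n p g e.1) = c * W0 N b g := by
  classical
  have hsub : Finset.univ.image (ff (N := N) n p) ⊆ inn n := by
    intro e he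
    obtain ⟨f, -, rfl⟩ := Finset.mem_image.1 he
    exact ff_mem h1 h2 hp1 hp2 f
  refine ⟨wI b 0 ^ (inn n \ Finset.univ.image (ff (N := N) n p)).card,
    pow_pos (wI_zero_pos hb) _, fun g => ?_⟩
  rw [← Finset.prod_sdiff hsub]
  congr 1
  · rw [Finset.prod_congr rfl (g := fun _ => wI b 0), Finset.prod_const]
    intro e he
    rw [Finset.mem_sdiff] at he
    have h3 : e.1 ∉ bx p (N + 1) ∧ tgt e ∉ bx p (N + 1) := by
      by_contra hcon
      rw [not_and_or, not_not, not_not] at hcon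
      obtain ⟨f, hf⟩ := ff_cover hp1 hp2 he.1 hcon
      exact he.2 (Finset.mem_image.2 ⟨f, Finset.mem_univ _, hf⟩)
    rw [xt_off (by omega) (by omega) g h3.1, xt_off (by omega) (by omega) g h3.2, sub_zero]
  · rw [Finset.prod_image (fun x _ y _ h => ff_inj h1 h2 hp1 hp2 h)]
    exact Finset.prod_congr rfl fun e _ => ff_dif h1 h2 hp1 hp2 g e

end emb

end Vale.Agent.P159.TM.H928
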