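import Vale.Agent.P159.T1.H910.Moment

/-!
P159, row IMOM (flows).  For a grid `pos i j` of a finite graph, linear functionals of the
heights like the difference of the averages over two neighbouring squares of side `m`, child
average minus parent average, average over a square minus average over a column of its boundary,
are `∑ a e * grd h e` with `|a e| ≤ 1 / m` (or `3 / (4 m)`) and `∑ (a e)^2 ≤ C`.
-/

open scoped BigOperators

namespace Vale.Agent.P159.TM.H928

open Vale.Agent.P159.T1.H934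

/-! ### one dimension -/

/-- number of the `i < m` with `i ≤ k < i + m` -/
def cnt (m k : ℕ) : ℕ := ((Finset.range m).filter fun i => i ≤ k ∧ k < i + m).card

lemma cnt_le (m k : ℕ) : cnt m k ≤ m := by
  unfold cnt
  exact (Finset.card_filter_le _ _).trans (by simp)

lemma tele (m : ℕ) (f : ℕ → ℝ) : ∑ i ∈ Finset.range m, (f i - f (i + m)) =
    ∑ k ∈ Finset.range (2 * m - 1), -(cnt m k : ℝ) * (f (k + 1) - f k) := by
  have h1 : ∀ i ∈ Finset.range m, f i - f (i + m) =
      ∑ k ∈ Finset.range (2 * m - 1), if i ≤ k ∧ k < i + m then -(f (k + 1) - f k) else 0 := by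
    intro i hi
    rw [Finset.mem_range] at hi
    rw [← Finset.sum_filter]
    have h2 : (Finset.range (2 * m - 1)).filter (fun k => i ≤ k ∧ k < i + m) =
        Finset.Ico i (i + m) := by
      ext k
      simp only [Finset.mem_filter, Finset.mem_range, Finset.mem_Ico]
      constructor
      · exact fun h => h.2
      · exact fun h => ⟨by omega, h⟩
    rw [h2, Finset.sum_neg_distrib, Finset.sum_Ico_sub (f := f) (by omega)]
    ring
  rw [Finset.sum_congr rfl h1, Finset.sum_comm]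
  refine Finset.sum_congr rfl fun k _ => ?_
  rw [← Finset.sum_filter, Finset.sum_const, nsmul_eq_mul]
  unfold cnt
  ring

lemma tele0 (m : ℕ) (f : ℕ → ℝ) : ∑ i ∈ Finset.range m, (f (i + 1) - f 0) =
    ∑ k ∈ Finset.range m, ((m : ℝ) - k) * (f (k + 1) - f k) := by
  induction m with
  | zero => simp
  | succ n ih =>
    rw [Finset.sum_range_succ, ih, Finset.sum_range_succ]
    have h1 : ∑ k ∈ Finset.range n, ((n + 1 : ℕ) - k : ℝ) * (f (k + 1) - f k) =
        ∑ k ∈ Finset.range n, ((n : ℝ) - k) * (f (k + 1) - f k) +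
          ∑ k ∈ Finset.range n, (f (k + 1) - f k) := by
      rw [← Finset.sum_add_distrib]
      refine Finset.sum_congr rfl fun k _ => ?_
      push_cast
      ring
    rw [h1, Finset.sum_range_sub f n]
    push_cast
    ring

/-! ### grids of the graph -/

section flow

variable {V E : Type} [Fintype E] {s t : E → V}

/-- the points `pos i j`, `i < p`, `j < q`, are distinct and form a grid of the graph -/
structure IsGrid (s t : E → V) (pos : ℕ → ℕ → V) (p q : ℕ) : Prop where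
  inj : ∀ i j i' j', i < p → j < q → i' < p → j' < q → pos i j = pos i' j' → i = i' ∧ j = j'
  hor : ∀ i j, i + 1 < p → j < q → adjG s t (pos i j) (pos (i + 1) j)
  ver : ∀ i j, i < p → j + 1 < q → adjG s t (pos i j) (pos i (j + 1))

omit [Fintype E] in
lemma IsGrid.swap {pos : ℕ → ℕ → V} {p q : ℕ} (h : IsGrid s t pos p q) :
    IsGrid s t (fun i j => pos j i) q p where
  inj i j i' j' hi hj hi' hj' e := (h.inj j i j' i' hj hi hj' hi' e).symm
  hor i j hi hj := h.ver j i hj hi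
  ver i j hi hj := h.hor j i hj hi

omit [Fintype E] in
lemma IsGrid.shift {pos : ℕ → ℕ → V} {p q : ℕ} (h : IsGrid s t pos p q) {a b p' q' : ℕ}
    (hp : a + p' ≤ p) (hq : b + q' ≤ q) :
    IsGrid s t (fun i j => pos (a + i) (b + j)) p' q' where
  inj i j i' j' hi hj hi' hj' e := by
    have := h.inj _ _ _ _ (by omega) (by omega) (by omega) (by omega) e
    omega
  hor i j hi hj := h.hor (a + i) (b + j) (by omega) (by omega)
  ver i j hi hj := h.ver (a + i) (b + j) (by omega) (by omega)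

/-- mean of the heights over the rectangle `[a, a + p) × [b, b + q)` -/
noncomputable def av (pos : ℕ → ℕ → V) (a b p q : ℕ) (h : V → ℤ) : ℝ :=
  (∑ i ∈ Finset.range p, ∑ j ∈ Finset.range q, (h (pos (a + i) (b + j)) : ℝ)) / (p * q)

lemma sum_pick_sq {K : Type*} [Fintype K] [DecidableEq E] {ε : K → E}
    (hε : Function.Injective ε) (x : K → ℝ) :
    ∑ e, (∑ κ, if ε κ = e then x κ else 0) ^ 2 = ∑ κ, x κ ^ 2 := by
  classical
  have h1 : ∀ e, (∑ κ, if ε κ = e then x κ else 0) ^ 2 = ∑ κ, if ε κ = e then x κ ^ 2 else 0 := by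
    intro e
    by_cases he : ∃ κ, ε κ = e
    · obtain ⟨κ, rfl⟩ := he
      have h2 : ∀ κ', (ε κ' = ε κ) ↔ κ' = κ := fun κ' => hε.eq_iff
      simp [h2]
    · push Not at he
      simp [he]
  simp only [h1]
  rw [Finset.sum_comm]
  simp

/-- **horizontal functionals**: `∑ x k j (h (k+1,j) - h (k,j))` is a functional of the gradient
with the same coefficients -/
theorem flow_gen {pos : ℕ → ℕ → V} {p q : ℕ} (hg : IsGrid s t pos (p + 1) q)
    (x : ℕ → ℕ → ℝ) {κ : ℝ} (hκ : 0 ≤ κ) (hx : ∀ k j, k < p → j < q → |x k j| ≤ κ) :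
    ∃ a : E → ℝ, (∀ h : V → ℤ, ∑ k ∈ Finset.range p, ∑ j ∈ Finset.range q,
        x k j * ((h (pos (k + 1) j) : ℝ) - h (pos k j)) = ∑ e, a e * (grd s t h e : ℝ)) ∧
      (∀ e, |a e| ≤ κ) ∧
      ∑ e, a e ^ 2 = ∑ k ∈ Finset.range p, ∑ j ∈ Finset.range q, x k j ^ 2 := by
  classical
  have hK : ∀ κ : Fin p × Fin q, ∃ e : E, ∃ σ : ℝ, |σ| = 1 ∧
      (((s e = pos κ.1 κ.2 ∧ t e = pos (κ.1 + 1) κ.2) ∧ σ = 1) ∨
        ((s e = pos (κ.1 + 1) κ.2 ∧ t e = pos κ.1 κ.2) ∧ σ = -1)) := by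
    rintro ⟨⟨i, hi⟩, ⟨j, hj⟩⟩
    obtain ⟨e, he | he⟩ := hg.hor i j (by omega) hj
    · exact ⟨e, 1, by simp, Or.inl ⟨he, rfl⟩⟩
    · exact ⟨e, -1, by simp, Or.inr ⟨he, rfl⟩⟩
  choose ε σ hσ hε using hK
  have hinj : Function.Injective ε := by
    rintro ⟨⟨i, hi⟩, ⟨j, hj⟩⟩ ⟨⟨i', hi'⟩, ⟨j', hj'⟩⟩ hh
    have h1 := hε ⟨⟨i, hi⟩, ⟨j, hj⟩⟩
    have h2 := hε ⟨⟨i', hi'⟩, ⟨j', hj'⟩⟩
    rw [hh] at h1
    simp only at h1 h2
    have key : i = i' ∧ j = j' := by
      rcases h1 with ⟨⟨a1, a2⟩, -⟩ | ⟨⟨a1, a2⟩, -⟩ <;>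
        rcases h2 with ⟨⟨b1, b2⟩, -⟩ | ⟨⟨b1, b2⟩, -⟩
      · exact hg.inj _ _ _ _ (by omega) hj (by omega) hj' (a1.symm.trans b1)
      · have c1 := hg.inj _ _ _ _ (by omega) hj (by omega) hj' (a1.symm.trans b1)
        have c2 := hg.inj _ _ _ _ (by omega) hj (by omega) hj' (a2.symm.trans b2)
        omega
      · have c1 := hg.inj _ _ _ _ (by omega) hj (by omega) hj' (a1.symm.trans b1)
        have c2 := hg.inj _ _ _ _ (by omega) hj (by omega) hj' (a2.symm.trans b2)
        omega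
      · exact hg.inj _ _ _ _ (by omega) hj (by omega) hj' (a2.symm.trans b2)
    obtain ⟨rfl, rfl⟩ := key
    rfl
  have hg' : ∀ (κ : Fin p × Fin q) (h : V → ℤ),
      (h (pos (κ.1 + 1) κ.2) : ℝ) - h (pos κ.1 κ.2) = σ κ * (grd s t h (ε κ) : ℝ) := by
    intro κ h
    show _ = σ κ * ((h (t (ε κ)) - h (s (ε κ)) : ℤ) : ℝ)
    push_cast
    rcases hε κ with ⟨⟨a1, a2⟩, a3⟩ | ⟨⟨a1, a2⟩, a3⟩
    · rw [a1, a2, a3]; ring
    · rw [a1, a2, a3]; ring
  have hx' : ∀ κ' : Fin p × Fin q, |x κ'.1 κ'.2 * σ κ'| ≤ κ := by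
    intro κ'
    rw [abs_mul, hσ, mul_one]
    exact hx _ _ κ'.1.2 κ'.2.2
  refine ⟨fun e => ∑ κ', if ε κ' = e then x κ'.1 κ'.2 * σ κ' else 0, fun h => ?_, fun e => ?_, ?_⟩
  · have h1 : ∑ e, (∑ κ', if ε κ' = e then x κ'.1 κ'.2 * σ κ' else 0) * (grd s t h e : ℝ) =
        ∑ κ' : Fin p × Fin q, x κ'.1 κ'.2 * σ κ' * (grd s t h (ε κ') : ℝ) := by
      simp only [Finset.sum_mul]
      rw [Finset.sum_comm]
      refine Finset.sum_congr rfl fun κ' _ => ?_
      simp only [ite_mul, zero_mul, Finset.sum_ite_eq, Finset.mem_univ, if_true]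
    rw [h1, Fintype.sum_prod_type, ← Fin.sum_univ_eq_sum_range
      (fun k => ∑ j ∈ Finset.range q, x k j * ((h (pos (k + 1) j) : ℝ) - h (pos k j))) p]
    refine Finset.sum_congr rfl fun i _ => ?_
    rw [← Fin.sum_univ_eq_sum_range (fun j => x i j * ((h (pos (i + 1) j) : ℝ) -
      h (pos i j))) q]
    refine Finset.sum_congr rfl fun j _ => ?_
    have h3 := hg' (i, j) h
    simp only at h3
    rw [h3]
    ring
  · by_cases he : ∃ κ', ε κ' = e
    · obtain ⟨κ', rfl⟩ := he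
      have h2 : ∀ κ'', (ε κ'' = ε κ') ↔ κ'' = κ' := fun κ'' => hinj.eq_iff
      simp only [h2, Finset.sum_ite_eq', Finset.mem_univ, if_true]
      exact hx' κ'
    · push Not at he
      simp only [he, if_false, Finset.sum_const_zero, abs_zero]
      exact hκ
  · rw [sum_pick_sq hinj, Fintype.sum_prod_type, ← Fin.sum_univ_eq_sum_range
      (fun k => ∑ j ∈ Finset.range q, x k j ^ 2) p]
    refine Finset.sum_congr rfl fun i _ => ?_
    rw [← Fin.sum_univ_eq_sum_range (fun j => x i j ^ 2) q]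
    refine Finset.sum_congr rfl fun j _ => ?_
    rw [mul_pow, ← sq_abs (σ (i, j)), hσ]
    ring

/-- **the flow between two neighbouring squares** -/
theorem flow_hor {pos : ℕ → ℕ → V} {m : ℕ} (hm : 0 < m) (hg : IsGrid s t pos (2 * m) m) :
    ∃ a : E → ℝ, (∀ h : V → ℤ, av pos 0 0 m m h - av pos m 0 m m h =
        ∑ e, a e * (grd s t h e : ℝ)) ∧ (∀ e, |a e| ≤ 1 / m) ∧ ∑ e, a e ^ 2 ≤ 2 := by
  have hm0 : (0 : ℝ) < m := by exact_mod_cast hm
  have hle : ∀ k, |-(cnt m k : ℝ) / (m * m)| ≤ 1 / m := by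
    intro k
    rw [abs_div, abs_neg, abs_of_nonneg (Nat.cast_nonneg _), abs_of_pos (mul_pos hm0 hm0),
      div_le_div_iff₀ (mul_pos hm0 hm0) hm0]
    have h1 : (cnt m k : ℝ) ≤ m := by exact_mod_cast cnt_le m k
    nlinarith
  have e0 : 2 * m - 1 + 1 = 2 * m := by omega
  obtain ⟨a, h1, h2, h3⟩ := flow_gen (p := 2 * m - 1) (q := m) (by rw [e0]; exact hg)
    (fun k _ => -(cnt m k : ℝ) / (m * m)) (κ := 1 / m) (by positivity) (fun k _ _ _ => hle k)
  refine ⟨a, fun h => ?_, h2, ?_⟩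
  · rw [← h1 h]
    unfold av
    simp only [zero_add]
    rw [← sub_div, ← Finset.sum_sub_distrib]
    simp only [← Finset.sum_sub_distrib]
    rw [Finset.sum_comm]
    have h2 : ∀ j ∈ Finset.range m,
        ∑ i ∈ Finset.range m, ((h (pos i j) : ℝ) - h (pos (m + i) j)) =
        ∑ k ∈ Finset.range (2 * m - 1), -(cnt m k : ℝ) *
          ((h (pos (k + 1) j) : ℝ) - h (pos k j)) := by
      intro j _
      rw [← tele m fun i => (h (pos i j) : ℝ)]
      refine Finset.sum_congr rfl fun i _ => ?_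
      rw [add_comm m i]
    rw [Finset.sum_congr rfl h2, Finset.sum_comm, Finset.sum_div]
    refine Finset.sum_congr rfl fun i _ => ?_
    rw [Finset.sum_div]
    refine Finset.sum_congr rfl fun j _ => ?_
    ring
  · rw [h3]
    calc ∑ k ∈ Finset.range (2 * m - 1), ∑ _j ∈ Finset.range m, (-(cnt m k : ℝ) / (m * m)) ^ 2
        ≤ ∑ _k ∈ Finset.range (2 * m - 1), ∑ _j ∈ Finset.range m, 1 / (m : ℝ) ^ 2 := by
          refine Finset.sum_le_sum fun k _ => Finset.sum_le_sum fun j _ => ?_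
          rw [← sq_abs]
          calc |-(cnt m k : ℝ) / (m * m)| ^ 2 ≤ (1 / (m : ℝ)) ^ 2 := by
                have := hle k
                gcongr
            _ = _ := by rw [div_pow, one_pow]
      _ = ((2 * m - 1 : ℕ) : ℝ) * m * (1 / (m : ℝ) ^ 2) := by
          simp only [Finset.sum_const, Finset.card_range, nsmul_eq_mul]
          ring
      _ ≤ 2 := by
          have h2 : ((2 * m - 1 : ℕ) : ℝ) ≤ 2 * m := by exact_mod_cast Nat.sub_le _ _
          rw [mul_one_div, div_le_iff₀ (by positivity)]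
          nlinarith

/-- **average over a square minus average over the neighbouring column** -/
theorem flow_bd {pos : ℕ → ℕ → V} {m : ℕ} (hm : 0 < m) (hg : IsGrid s t pos (m + 1) m) :
    ∃ a : E → ℝ, (∀ h : V → ℤ, av pos 1 0 m m h - av pos 0 0 1 m h =
        ∑ e, a e * (grd s t h e : ℝ)) ∧ (∀ e, |a e| ≤ 1 / m) ∧ ∑ e, a e ^ 2 ≤ 1 := by
  have hm0 : (0 : ℝ) < m := by exact_mod_cast hm
  have hle : ∀ k, k < m → |((m : ℝ) - k) / (m * m)| ≤ 1 / m := by
    intro k hk
    have hk' : (k : ℝ) ≤ m := by exact_mod_cast hk.le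
    rw [abs_div, abs_of_nonneg (by linarith), abs_of_pos (mul_pos hm0 hm0),
      div_le_div_iff₀ (mul_pos hm0 hm0) hm0]
    have : (0 : ℝ) ≤ k := Nat.cast_nonneg k
    nlinarith
  obtain ⟨a, h1, h2, h3⟩ := flow_gen (p := m) (q := m) hg
    (fun k _ => ((m : ℝ) - k) / (m * m)) (κ := 1 / m) (by positivity) (fun k _ hk _ => hle k hk)
  refine ⟨a, fun h => ?_, h2, ?_⟩
  · rw [← h1 h]
    unfold av
    simp only [zero_add, Finset.range_one, Finset.sum_singleton, Nat.cast_one, one_mul]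
    have e1 : (∑ j ∈ Finset.range m, (h (pos 0 j) : ℝ)) / m =
        (∑ _i ∈ Finset.range m, ∑ j ∈ Finset.range m, (h (pos 0 j) : ℝ)) / (m * m) := by
      rw [Finset.sum_const, Finset.card_range, nsmul_eq_mul, mul_div_mul_left _ _ hm0.ne']
    rw [e1, ← sub_div, ← Finset.sum_sub_distrib]
    simp only [← Finset.sum_sub_distrib]
    rw [Finset.sum_comm]
    have h2 : ∀ j ∈ Finset.range m,
        ∑ i ∈ Finset.range m, ((h (pos (1 + i) j) : ℝ) - h (pos 0 j)) =
        ∑ k ∈ Finset.range m, ((m : ℝ) - k) * ((h (pos (k + 1) j) : ℝ) - h (pos k j)) := by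
      intro j _
      rw [← tele0 m fun i => (h (pos i j) : ℝ)]
      refine Finset.sum_congr rfl fun i _ => ?_
      rw [add_comm 1 i]
    rw [Finset.sum_congr rfl h2, Finset.sum_comm, Finset.sum_div]
    refine Finset.sum_congr rfl fun i _ => ?_
    rw [Finset.sum_div]
    refine Finset.sum_congr rfl fun j _ => ?_
    ring
  · rw [h3]
    calc ∑ k ∈ Finset.range m, ∑ _j ∈ Finset.range m, (((m : ℝ) - k) / (m * m)) ^ 2
        ≤ ∑ _k ∈ Finset.range m, ∑ _j ∈ Finset.range m, 1 / (m : ℝ) ^ 2 := by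
          refine Finset.sum_le_sum fun k hk => Finset.sum_le_sum fun j _ => ?_
          rw [← sq_abs]
          calc |((m : ℝ) - k) / (m * m)| ^ 2 ≤ (1 / (m : ℝ)) ^ 2 := by
                have := hle k (Finset.mem_range.1 hk)
                gcongr
            _ = _ := by rw [div_pow, one_pow]
      _ = (m : ℝ) * m * (1 / (m : ℝ) ^ 2) := by
          simp only [Finset.sum_const, Finset.card_range, nsmul_eq_mul]
          ring
      _ ≤ 1 := by
          rw [mul_one_div, div_le_iff₀ (by positivity)]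
          nlinarith

end flow

end Vale.Agent.P159.TM.H928
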