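import Vale.Agent.P159.TM.H928.Dw
import Vale.Agent.P159.R2.H254.Link

/-!
P159, row DELTA, part 1: the wired box (`Hgt N`, `hWt N b`) of GaussianLimit as an instance of
`mz`; bare moments of child-parent differences.
-/

open MeasureTheory
open scoped BigOperators

namespace Vale.Agent.P159.TM.H928

open Vale.Agent.P159.T1 Vale.Agent.P159.T1.H934 Vale.Agent.P159.T1.H910
open Vale.Agent.P159.R2.H254 (Fa Eb blf brt bcur Hgt hWt hWt_eq)

section hgt

variable {N : ℕ} {b : ℝ}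

/-- position of the face `(i, j)` -/
def fp (N : ℕ) (i j : ℕ) : Fa N := (Fin.ofNat (N + 1) i, Fin.ofNat (N + 1) j)

lemma fp_eq {i j : ℕ} (hi : i < N + 1) (hj : j < N + 1) : fp N i j = (⟨i, hi⟩, ⟨j, hj⟩) := by
  unfold fp
  refine Prod.ext (Fin.ext ?_) (Fin.ext ?_)
  · simp [Nat.mod_eq_of_lt hi]
  · simp [Nat.mod_eq_of_lt hj]

lemma grid_hgt (N : ℕ) : IsGrid (brt (N := N)) blf (fp N) (N + 1) (N + 1) where
  inj i j i' j' hi hj hi' hj' h := by
    rw [fp_eq hi hj, fp_eq hi' hj', Prod.mk.injEq, Fin.mk.injEq, Fin.mk.injEq] at h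
    exact h
  hor i j hi hj := by
    rw [fp_eq (by omega) hj, fp_eq hi hj]
    exact ⟨Sum.inl (⟨i, by omega⟩, ⟨j, hj⟩), Or.inr ⟨rfl, rfl⟩⟩
  ver i j hi hj := by
    rw [fp_eq hi (by omega), fp_eq hi hj]
    exact ⟨Sum.inr (⟨i, hi⟩, ⟨j, by omega⟩), Or.inl ⟨rfl, rfl⟩⟩

lemma conn_of_grid {V E : Type} {s t : E → V} {pos : ℕ → ℕ → V} {p q : ℕ}
    (hg : IsGrid s t pos p q) (hs : ∀ v, ∃ i j, i < p ∧ j < q ∧ v = pos i j) : Conn s t := by
  have sym : ∀ u v, adjG s t u v → adjG s t v u := fun u v ⟨e, he⟩ => ⟨e, he.symm⟩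
  have r1 : ∀ i j, i < p → j < q → Relation.ReflTransGen (adjG s t) (pos 0 j) (pos i j) := by
    intro i
    induction i with
    | zero => exact fun j _ _ => Relation.ReflTransGen.refl
    | succ n ih => exact fun j hi hj => (ih j (by omega) hj).tail (hg.hor n j hi hj)
  have r1' : ∀ i j, i < p → j < q → Relation.ReflTransGen (adjG s t) (pos i j) (pos 0 j) := by
    intro i
    induction i with
    | zero => exact fun j _ _ => Relation.ReflTransGen.refl
    | succ n ih =>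
      exact fun j hi hj => (ih j (by omega) hj).head (sym _ _ (hg.hor n j hi hj))
  have r2 : ∀ j, 0 < p → j < q → Relation.ReflTransGen (adjG s t) (pos 0 0) (pos 0 j) := by
    intro j
    induction j with
    | zero => exact fun _ _ => Relation.ReflTransGen.refl
    | succ n ih => exact fun h0 hj => (ih h0 (by omega)).tail (hg.ver 0 n h0 hj)
  have r2' : ∀ j, 0 < p → j < q → Relation.ReflTransGen (adjG s t) (pos 0 j) (pos 0 0) := by
    intro j
    induction j with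
    | zero => exact fun _ _ => Relation.ReflTransGen.refl
    | succ n ih => exact fun h0 hj => (ih h0 (by omega)).head (sym _ _ (hg.ver 0 n h0 hj))
  intro u v
  obtain ⟨i, j, hi, hj, rfl⟩ := hs u
  obtain ⟨i', j', hi', hj', rfl⟩ := hs v
  exact ((r1' i j hi hj).trans (r2' j (by omega) hj)).trans
    ((r2 j' (by omega) hj').trans (r1 i' j' hi' hj'))

lemma conn_hgt (N : ℕ) : Conn (brt (N := N)) blf :=
  conn_of_grid (grid_hgt N) fun v => ⟨v.1.1, v.2.1, v.1.2, v.2.2, by rw [fp_eq v.1.2 v.2.2]⟩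

/-- the law of the wired box -/
noncomputable abbrev mw (N : ℕ) (b : ℝ) : Measure (Fa N → ℤ) :=
  mz (brt (N := N)) blf (fun _ => b) {(0, 0)}

lemma ZZ_hgt (hb : 0 ≤ b) (F : (Fa N → ℤ) → ℝ) :
    H910.ZZ (brt (N := N)) blf (fun _ => b) {(0, 0)} F = ∑' h : Hgt N, hWt N b h.1 * F h.1 := by
  unfold H910.ZZ
  refine Eq.trans (tsum_congr fun h => ?_)
    (tsum_subtype {h : Fa N → ℤ | h (0, 0) = 0} (fun h => hWt N b h * F h)).symm
  simp only [Set.mem_singleton_iff, forall_eq]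
  by_cases h0 : h (0, 0) = 0
  · rw [if_pos h0, Set.indicator_of_mem (by exact h0), hWt_eq hb]
    rfl
  · rw [if_neg h0, Set.indicator_of_notMem (by exact h0)]

/-- **expectations in the wired box** -/
theorem integral_mw (hb : 0 ≤ b) (F : (Fa N → ℤ) → ℝ) :
    ∫ h, F h ∂(mw N b) = (∑' h : Hgt N, hWt N b h.1 * F h.1) / ∑' h : Hgt N, hWt N b h.1 := by
  rw [integral_mz (fun _ => hb), ZZ_hgt hb, ZZ_hgt hb]
  simp only [mul_one]

lemma prob_mw (hb : 0 ≤ b) (N : ℕ) : IsProbabilityMeasure (mw N b) :=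
  isProb_mz (conn_hgt N) (fun _ => hb) (Set.singleton_nonempty _)

/-- **bare moments in the wired box** -/
theorem mw_mom (hb : 0 ≤ b) {m i j : ℕ} (hm : 0 < m) (hi : i + 2 * m ≤ N + 1)
    (hj : j + 2 * m ≤ N + 1) (c : Bool × Bool) (n : ℕ) :
    Integrable (fun h => Xc (fp N) i j m c h ^ n) (mw N b) ∧
      ∫ h, Xc (fp N) i j m c h ^ (2 * n) ∂(mw N b) ≤
        2 * ((2 * n).factorial : ℝ) * Real.exp (2 * b) :=
  Xc_mom (conn_hgt N) (fun _ => hb) (fun _ => le_rfl) hb (Set.singleton_nonempty _)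
    (grid_hgt N) hm hi hj c n

end hgt

end Vale.Agent.P159.TM.H928
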