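import Vale.Agent.P159.T1.H910.Moment
import Mathlib.MeasureTheory.Integral.Bochner.SumMeasure

/-!
P159: the law `mz s t J X` of the integer heights of a finite connected graph (couplings `J`,
heights `0` on `X`) as a probability measure, `∫ f ∂mz = ZZ f / ZZ 1`; exponential moments of
linear functionals of the gradient (bare domination).
-/

open MeasureTheory
open scoped BigOperators ENNReal

namespace Vale.Agent.P159.TM.H928

open Vale.Agent.P159.T1 Vale.Agent.P159.T1.H934 Vale.Agent.P159.T1.H910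

section meas

variable {V E : Type} [Fintype V] [Fintype E] {s t : E → V}

open Classical in
/-- probability weights of the heights -/
noncomputable def pw (s t : E → V) (J : E → ℝ) (X : Set V) (h : V → ℤ) : ℝ :=
  (if ∀ v ∈ X, h v = 0 then W (grd s t) J h else 0) / H910.ZZ s t J X fun _ => 1

lemma pw_nonneg {J : E → ℝ} (hJ : ∀ e, 0 ≤ J e) (X : Set V) (h : V → ℤ) :
    0 ≤ pw s t J X h := by
  unfold pw
  refine div_nonneg ?_ (ZZ_nonneg hJ X fun _ => zero_le_one)
  split_ifs
  · exact W_nonneg hJ _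
  · exact le_rfl

lemma pw_mul (J : E → ℝ) (X : Set V) (f : (V → ℤ) → ℝ) :
    ∑' h, pw s t J X h * f h = H910.ZZ s t J X f / H910.ZZ s t J X fun _ => 1 := by
  classical
  have h1 : ∀ h, pw s t J X h * f h =
      (if ∀ v ∈ X, h v = 0 then W (grd s t) J h * f h else 0) / H910.ZZ s t J X fun _ => 1 := by
    intro h
    unfold pw
    split_ifs
    · rw [div_mul_eq_mul_div]
    · rw [zero_div, zero_mul]
  simp only [h1]
  rw [tsum_div_const]
  rfl

/-- the law of the heights -/
noncomputable def mz (s t : E → V) (J : E → ℝ) (X : Set V) : Measure (V → ℤ) :=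
  Measure.sum fun h => ENNReal.ofReal (pw s t J X h) • Measure.dirac h

theorem integral_mz {J : E → ℝ} (hJ : ∀ e, 0 ≤ J e) (X : Set V) (f : (V → ℤ) → ℝ) :
    ∫ h, f h ∂(mz s t J X) = H910.ZZ s t J X f / H910.ZZ s t J X fun _ => 1 := by
  unfold mz
  rw [integral_sum_dirac (fun _ => ENNReal.ofReal_ne_top), ← pw_mul]
  refine tsum_congr fun h => ?_
  rw [ENNReal.toReal_ofReal (pw_nonneg hJ X h), smul_eq_mul]

theorem integrable_mz {J : E → ℝ} (hJ : ∀ e, 0 ≤ J e) (X : Set V) (f : (V → ℤ) → ℝ) :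
    Integrable f (mz s t J X) ↔ Summable fun h => pw s t J X h * |f h| := by
  unfold mz
  rw [integrable_sum_dirac_iff (fun _ => ENNReal.ofReal_ne_top)]
  have : (fun h => (ENNReal.ofReal (pw s t J X h)).toReal * ‖f h‖) =
      fun h => pw s t J X h * |f h| := by
    funext h
    rw [ENNReal.toReal_ofReal (pw_nonneg hJ X h), Real.norm_eq_abs]
  rw [this]

/-- functions of exponential growth are integrable -/
theorem integrable_growth (hc : Conn s t) {J : E → ℝ} (hJ : ∀ e, 0 ≤ J e) {X : Set V}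
    (hX : X.Nonempty) (ρ : V → ℝ) {f : (V → ℤ) → ℝ} {C : ℝ}
    (hf : ∀ h, |f h| ≤ C * Real.exp |li ρ h|) : Integrable f (mz s t J X) := by
  classical
  rw [integrable_mz hJ]
  have h1 := (summable_ZZ hc hJ hX ρ hf).div_const (H910.ZZ s t J X fun _ => 1)
  refine h1.congr fun h => ?_
  unfold pw
  split_ifs
  · rw [abs_mul, abs_of_nonneg (W_nonneg hJ _), div_mul_eq_mul_div]
  · rw [abs_zero, zero_div, zero_mul]

theorem isProb_mz (hc : Conn s t) {J : E → ℝ} (hJ : ∀ e, 0 ≤ J e) {X : Set V}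
    (hX : X.Nonempty) : IsProbabilityMeasure (mz s t J X) := by
  have h1 := integral_mz (s := s) (t := t) hJ X fun _ => (1 : ℝ)
  rw [div_self (ZZ_pos hc hJ hX).ne'] at h1
  have h2 : Integrable (fun _ : V → ℤ => (1 : ℝ)) (mz s t J X) :=
    integrable_growth hc hJ hX 0 (one_le' 0)
  have h3 : IsFiniteMeasure (mz s t J X) := by
    rwa [integrable_const_iff_isFiniteMeasure one_ne_zero] at h2
  rw [integral_const, smul_eq_mul, mul_one] at h1
  refine ⟨?_⟩
  have h4 : (mz s t J X Set.univ).toReal = 1 := h1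
  rw [← ENNReal.toReal_one] at h4
  exact (ENNReal.toReal_eq_toReal_iff' (measure_ne_top _ _) ENNReal.one_ne_top).1 h4

/-! ### linear functionals of the gradient -/

/-- a linear functional of the gradient -/
noncomputable def lf (s t : E → V) (a : E → ℝ) (h : V → ℤ) : ℝ := ∑ e, a e * (grd s t h e : ℝ)

lemma lf_li (a : E → ℝ) : ∃ ρ : V → ℝ, ∀ h : V → ℤ, lf s t a h = li ρ h := by
  classical
  refine ⟨fun v => ∑ e, a e * ((if t e = v then 1 else 0) - if s e = v then 1 else 0),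
    fun h => ?_⟩
  unfold lf li
  simp only [Finset.sum_mul]
  rw [Finset.sum_comm]
  refine Finset.sum_congr rfl fun e _ => ?_
  have h1 : ∀ x : V, (∑ v, (if x = v then (1 : ℝ) else 0) * (h v : ℝ)) = h x := by
    intro x
    simp
  have h2 : ∑ v, a e * (((if t e = v then (1 : ℝ) else 0) - if s e = v then 1 else 0)) * (h v : ℝ) =
      a e * (∑ v, (if t e = v then (1 : ℝ) else 0) * (h v : ℝ) -
        ∑ v, (if s e = v then (1 : ℝ) else 0) * (h v : ℝ)) := by
    rw [← Finset.sum_sub_distrib, Finset.mul_sum]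
    refine Finset.sum_congr rfl fun v _ => ?_
    ring
  rw [h2, h1, h1]
  show a e * ((h (t e) - h (s e) : ℤ) : ℝ) = _
  push_cast
  ring

omit [Fintype V] in
lemma lf_smul (c : ℝ) (a : E → ℝ) (h : V → ℤ) : lf s t (fun e => c * a e) h = c * lf s t a h := by
  unfold lf
  rw [Finset.mul_sum]
  exact Finset.sum_congr rfl fun e _ => by ring

/-- growth of powers -/
lemma pow_le_exp (n : ℕ) (x : ℝ) : |x ^ n| ≤ (n.factorial : ℝ) * Real.exp |x| := by
  have h1 := Real.pow_div_factorial_le_exp |x| (abs_nonneg x) n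
  rw [div_le_iff₀ (by positivity)] at h1
  rw [abs_pow]
  linarith

theorem integrable_lf_pow (hc : Conn s t) {J : E → ℝ} (hJ : ∀ e, 0 ≤ J e) {X : Set V}
    (hX : X.Nonempty) (a : E → ℝ) (n : ℕ) :
    Integrable (fun h => lf s t a h ^ n) (mz s t J X) := by
  obtain ⟨ρ, hρ⟩ := lf_li (s := s) (t := t) a
  refine integrable_growth hc hJ hX ρ (C := (n.factorial : ℝ)) fun h => ?_
  rw [hρ h]
  exact pow_le_exp n _

theorem integrable_cosh (hc : Conn s t) {J : E → ℝ} (hJ : ∀ e, 0 ≤ J e) {X : Set V}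
    (hX : X.Nonempty) (a : E → ℝ) : Integrable (fun h => Real.cosh (lf s t a h)) (mz s t J X) := by
  obtain ⟨ρ, hρ⟩ := lf_li (s := s) (t := t) a
  refine integrable_growth hc hJ hX ρ (C := 1) fun h => ?_
  rw [hρ h]
  exact cosh_le ρ h

theorem integrable_exp (hc : Conn s t) {J : E → ℝ} (hJ : ∀ e, 0 ≤ J e) {X : Set V}
    (hX : X.Nonempty) (a : E → ℝ) : Integrable (fun h => Real.exp (lf s t a h)) (mz s t J X) := by
  obtain ⟨ρ, hρ⟩ := lf_li (s := s) (t := t) a
  refine integrable_growth hc hJ hX ρ (C := 1) fun h => ?_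
  rw [hρ h]
  exact exp_le' ρ h

/-- **bare domination, exponential form** -/
theorem cosh_bare (hc : Conn s t) {J : E → ℝ} (hJ : ∀ e, 0 ≤ J e) {X : Set V}
    (hX : X.Nonempty) (a : E → ℝ) :
    ∫ h, Real.cosh (lf s t a h) ∂(mz s t J X) ≤ Real.exp (∑ e, J e * (Real.cosh (a e) - 1)) := by
  rw [integral_mz hJ, div_le_iff₀ (ZZ_pos hc hJ hX)]
  exact ZZ_exp_le hc hJ hX a

/-- **bare domination for bounded flows** -/
theorem cosh_bare_sq (hc : Conn s t) {J : E → ℝ} (hJ : ∀ e, 0 ≤ J e) {b : ℝ}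
    (hJb : ∀ e, J e ≤ b) {X : Set V} (hX : X.Nonempty) {a : E → ℝ} (ha : ∀ e, |a e| ≤ 1) {A : ℝ}
    (hA : ∑ e, a e ^ 2 ≤ A) (hb : 0 ≤ b) :
    ∫ h, Real.cosh (lf s t a h) ∂(mz s t J X) ≤ Real.exp (b * A) := by
  refine (cosh_bare hc hJ hX a).trans (Real.exp_le_exp.2 ?_)
  calc ∑ e, J e * (Real.cosh (a e) - 1) ≤ ∑ e, b * a e ^ 2 := by
        refine Finset.sum_le_sum fun e _ => ?_
        have h1 : Real.cosh (a e) - 1 ≤ a e ^ 2 := by
          have h2 := Real.cosh_le_exp_half_sq (a e)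
          have h3 : a e ^ 2 ≤ 1 := by
            rw [← sq_abs]
            have := ha e
            have := abs_nonneg (a e)
            nlinarith
          have h4 : Real.exp (a e ^ 2 / 2) ≤ 1 + a e ^ 2 := by
            have h5 := Real.abs_exp_sub_one_sub_id_le (x := a e ^ 2 / 2) (by
              rw [abs_of_nonneg (by positivity)]; linarith)
            have h6 := (abs_le.1 h5).2
            nlinarith [sq_nonneg (a e)]
          linarith
        exact mul_le_mul (hJb e) h1 (by linarith [Real.one_le_cosh (a e)]) hb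
    _ = b * ∑ e, a e ^ 2 := by rw [Finset.mul_sum]
    _ ≤ b * A := mul_le_mul_of_nonneg_left hA hb

/-- **bare moments** -/
theorem mom_bare (hc : Conn s t) {J : E → ℝ} (hJ : ∀ e, 0 ≤ J e) {b : ℝ}
    (hJb : ∀ e, J e ≤ b) {X : Set V} (hX : X.Nonempty) {a : E → ℝ} (ha : ∀ e, |a e| ≤ 1) {A : ℝ}
    (hA : ∑ e, a e ^ 2 ≤ A) (hb : 0 ≤ b) (n : ℕ) :
    ∫ h, lf s t a h ^ (2 * n) ∂(mz s t J X) ≤ 2 * ((2 * n).factorial : ℝ) * Real.exp (b * A) := by
  have h1 : ∀ h : V → ℤ, lf s t a h ^ (2 * n) ≤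
      2 * ((2 * n).factorial : ℝ) * Real.cosh (lf s t a h) := by
    intro h
    have h2 := pow_le_exp (2 * n) (lf s t a h)
    have h3 : Real.exp |lf s t a h| ≤ 2 * Real.cosh (lf s t a h) := by
      rw [← Real.cosh_abs, Real.cosh_eq]
      have := Real.exp_pos (-|lf s t a h|)
      linarith
    calc lf s t a h ^ (2 * n) ≤ |lf s t a h ^ (2 * n)| := le_abs_self _
      _ ≤ ((2 * n).factorial : ℝ) * Real.exp |lf s t a h| := h2
      _ ≤ ((2 * n).factorial : ℝ) * (2 * Real.cosh (lf s t a h)) :=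
          mul_le_mul_of_nonneg_left h3 (by positivity)
      _ = _ := by ring
  calc ∫ h, lf s t a h ^ (2 * n) ∂(mz s t J X)
      ≤ ∫ h, 2 * ((2 * n).factorial : ℝ) * Real.cosh (lf s t a h) ∂(mz s t J X) :=
        integral_mono (integrable_lf_pow hc hJ hX a _)
          ((integrable_cosh hc hJ hX a).const_mul _) h1
    _ = 2 * ((2 * n).factorial : ℝ) * ∫ h, Real.cosh (lf s t a h) ∂(mz s t J X) :=
        integral_const_mul _ _
    _ ≤ _ := mul_le_mul_of_nonneg_left (cosh_bare_sq hc hJ hJb hX ha hA hb) (by positivity)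

end meas

end Vale.Agent.P159.TM.H928
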