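import Vale.Agent.P159.TM.H928.Child
import Vale.Agent.P159.TM.H928.Meas

/-!
P159, row IMOM: moments of the energies of a dyadic square,
`Vq = (1/4) ∑_{4 children} (child average - square average)^2`,
for the heights of any finite connected graph which contains the square, with couplings
`0 ≤ J e ≤ b` and heights `0` on any nonempty set `X`.
-/

open MeasureTheory
open scoped BigOperators

namespace Vale.Agent.P159.TM.H928

open Vale.Agent.P159.T1 Vale.Agent.P159.T1.H934 Vale.Agent.P159.T1.H910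

section mom

variable {V E : Type} [Fintype V] [Fintype E] {s t : E → V}

/-- child average minus square average; square of side `2 m` with corner `(a, b)` -/
noncomputable def Xc (pos : ℕ → ℕ → V) (a b m : ℕ) (c : Bool × Bool) (h : V → ℤ) : ℝ :=
  av pos (a + bif c.1 then m else 0) (b + bif c.2 then m else 0) m m h -
    av pos a b (2 * m) (2 * m) h

/-- energy of a square of side `2 m` with corner `(a, b)` -/
noncomputable def Vq (pos : ℕ → ℕ → V) (a b m : ℕ) (h : V → ℤ) : ℝ :=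
  (∑ c : Bool × Bool, Xc pos a b m c h ^ 2) / 4

omit [Fintype V] [Fintype E] in
lemma Vq_nonneg (pos : ℕ → ℕ → V) (a b m : ℕ) (h : V → ℤ) : 0 ≤ Vq pos a b m h := by
  unfold Vq
  positivity

omit [Fintype V] in
/-- the child-parent difference is a flow functional -/
lemma Xc_lf {pos : ℕ → ℕ → V} {p q : ℕ} (hg : IsGrid s t pos p q) {m a b : ℕ}
    (hm : 0 < m) (ha : a + 2 * m ≤ p) (hb : b + 2 * m ≤ q) (c : Bool × Bool) :
    ∃ x : E → ℝ, (∀ h : V → ℤ, Xc pos a b m c h = lf s t x h) ∧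
        (∀ e, |x e| ≤ 1 / m) ∧ ∑ e, x e ^ 2 ≤ 2 :=
  flow_child hg hm ha hb c.1 c.2

lemma one_div_le_one' {m : ℕ} (hm : 0 < m) : 1 / (m : ℝ) ≤ 1 := by
  rw [div_le_one (by exact_mod_cast hm)]
  exact_mod_cast hm

variable {J : E → ℝ} {B : ℝ} {X : Set V}

/-- **IMOM, children** -/
theorem Xc_mom (hc : Conn s t) (hJ : ∀ e, 0 ≤ J e) (hJb : ∀ e, J e ≤ B) (hB : 0 ≤ B)
    (hX : X.Nonempty) {pos : ℕ → ℕ → V} {p q : ℕ} (hg : IsGrid s t pos p q) {m a b : ℕ}
    (hm : 0 < m) (ha : a + 2 * m ≤ p) (hb : b + 2 * m ≤ q) (c : Bool × Bool) (n : ℕ) :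
    Integrable (fun h => Xc pos a b m c h ^ n) (mz s t J X) ∧
      ∫ h, Xc pos a b m c h ^ (2 * n) ∂(mz s t J X) ≤
        2 * ((2 * n).factorial : ℝ) * Real.exp (2 * B) := by
  obtain ⟨x, h1, h2, h3⟩ := Xc_lf hg hm ha hb c
  simp only [h1]
  refine ⟨integrable_lf_pow hc hJ hX x n, ?_⟩
  rw [mul_comm 2 B]
  exact mom_bare hc hJ hJb hX (fun e => (h2 e).trans (one_div_le_one' hm)) h3 hB n

lemma avg4_pow (f : Bool × Bool → ℝ) (hf : ∀ c, 0 ≤ f c) (n : ℕ) :
    ((∑ c, f c) / 4) ^ n ≤ (∑ c, f c ^ n) / 4 := by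
  rcases n with _ | n
  · simp
  · have h1 := pow_sum_div_card_le_sum_pow (s := (Finset.univ : Finset (Bool × Bool)))
      (f := f) (fun c _ => hf c) n
    have h2 : (Finset.univ : Finset (Bool × Bool)).card = 4 := by decide
    rw [h2] at h1
    rw [div_pow, pow_succ (4 : ℝ) n, div_le_div_iff₀ (by positivity) (by norm_num)]
    rw [div_le_iff₀ (by positivity)] at h1
    push_cast at h1
    nlinarith

/-- **IMOM**: all moments of the energy of a square -/
theorem Vq_mom (hc : Conn s t) (hJ : ∀ e, 0 ≤ J e) (hJb : ∀ e, J e ≤ B) (hB : 0 ≤ B)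
    (hX : X.Nonempty) {pos : ℕ → ℕ → V} {p q : ℕ} (hg : IsGrid s t pos p q) {m a b : ℕ}
    (hm : 0 < m) (ha : a + 2 * m ≤ p) (hb : b + 2 * m ≤ q) (n : ℕ) :
    Integrable (fun h => Vq pos a b m h ^ n) (mz s t J X) ∧
      ∫ h, Vq pos a b m h ^ n ∂(mz s t J X) ≤ 2 * ((2 * n).factorial : ℝ) * Real.exp (2 * B) := by
  have hle : ∀ h : V → ℤ, Vq pos a b m h ^ n ≤ (∑ c : Bool × Bool, Xc pos a b m c h ^ (2 * n)) / 4 := by
    intro h
    have h1 := avg4_pow (fun c => Xc pos a b m c h ^ 2) (fun c => by positivity) n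
    refine h1.trans (le_of_eq ?_)
    simp only [pow_mul]
  have hi : Integrable (fun h : V → ℤ => (∑ c : Bool × Bool, Xc pos a b m c h ^ (2 * n)) / 4)
      (mz s t J X) :=
    (integrable_finsetSum _ fun c _ =>
      (Xc_mom hc hJ hJb hB hX hg hm ha hb c (2 * n)).1).div_const 4
  have hm' : Integrable (fun h => Vq pos a b m h ^ n) (mz s t J X) := by
    refine hi.mono' (measurable_of_countable _).aestronglyMeasurable
      (Filter.Eventually.of_forall fun h => ?_)
    rw [Real.norm_eq_abs, abs_of_nonneg (pow_nonneg (Vq_nonneg _ _ _ _ _) _)]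
    exact hle h
  refine ⟨hm', (integral_mono hm' hi hle).trans ?_⟩
  rw [integral_div, integral_finsetSum _ fun c _ =>
      (Xc_mom hc hJ hJb hB hX hg hm ha hb c (2 * n)).1]
  rw [div_le_iff₀ (by norm_num)]
  calc ∑ c : Bool × Bool, ∫ h, Xc pos a b m c h ^ (2 * n) ∂(mz s t J X)
      ≤ ∑ _c : Bool × Bool, 2 * ((2 * n).factorial : ℝ) * Real.exp (2 * B) :=
        Finset.sum_le_sum fun c _ => (Xc_mom hc hJ hJb hB hX hg hm ha hb c n).2
    _ = _ := by
        rw [Finset.sum_const]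
        have h2 : (Finset.univ : Finset (Bool × Bool)).card = 4 := by decide
        rw [h2, nsmul_eq_mul]
        push_cast
        ring

/-- **average over a square next to a column of zeros** (zero boundary values) -/
theorem av_mom (hc : Conn s t) (hJ : ∀ e, 0 ≤ J e) (hJb : ∀ e, J e ≤ B) (hB : 0 ≤ B)
    {pos : ℕ → ℕ → V} {m : ℕ} (hg : IsGrid s t pos (m + 1) m) (hm : 0 < m)
    (hX : ∀ j, j < m → pos 0 j ∈ X) (n : ℕ) :
    Integrable (fun h => av pos 1 0 m m h ^ n) (mz s t J X) ∧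
      ∫ h, av pos 1 0 m m h ^ (2 * n) ∂(mz s t J X) ≤
        2 * ((2 * n).factorial : ℝ) * Real.exp B := by
  classical
  have hXn : X.Nonempty := ⟨_, hX 0 hm⟩
  obtain ⟨x, h1, h2, h3⟩ := flow_bd hm hg
  have h0 : ∀ n : ℕ, (fun h : V → ℤ => pw s t J X h * |av pos 1 0 m m h ^ n|) =
      fun h => pw s t J X h * |lf s t x h ^ n| := by
    intro n
    funext h
    by_cases hh : ∀ v ∈ X, h v = 0
    · have e1 : av pos 0 0 1 m h = 0 := by
        unfold av
        simp only [zero_add, Finset.range_one, Finset.sum_singleton]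
        rw [Finset.sum_eq_zero, zero_div]
        intro j hj
        rw [hh _ (hX j (Finset.mem_range.1 hj)), Int.cast_zero]
      have e2 := h1 h
      rw [e1, sub_zero] at e2
      rw [e2]
      rfl
    · unfold pw
      rw [if_neg hh, zero_div, zero_mul, zero_mul]
  have h0' : ∀ n : ℕ, ∫ h, av pos 1 0 m m h ^ (2 * n) ∂(mz s t J X) =
      ∫ h, lf s t x h ^ (2 * n) ∂(mz s t J X) := by
    intro n
    rw [integral_mz hJ, integral_mz hJ, ← pw_mul, ← pw_mul]
    refine tsum_congr fun h => ?_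
    have := congrFun (h0 (2 * n)) h
    rwa [abs_of_nonneg (Even.pow_nonneg (even_two_mul n) _),
      abs_of_nonneg (Even.pow_nonneg (even_two_mul n) _)] at this
  constructor
  · rw [integrable_mz hJ, h0, ← integrable_mz hJ]
    exact integrable_lf_pow hc hJ hXn x n
  · rw [h0']
    have := mom_bare hc hJ hJb hXn (fun e => (h2 e).trans (one_div_le_one' hm)) h3 hB n
    rwa [mul_one] at this

end mom

end Vale.Agent.P159.TM.H928
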