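import Vale.Agent.P159.TM.H928.Cells

/-!
P159, row MUV (of `TM/H574/Stmt.lean`): the mean energy of a cell changes little when the mass of
its level is added.
-/

open MeasureTheory
open scoped BigOperators

namespace Vale.Agent.P159.TM.H928

open Vale.Agent.P159.T1 Vale.Agent.P159.T1.H934 Vale.Agent.P159.T1.H910
open Vale.Agent.P159.TM.SpecI Vale.Agent.P159.TM.H574

/-- the statement inside `IDWI` -/
def IDW1 (b C c : ℝ) : Prop :=
  ∀ (n : ℕ) [NeZero n] (r m : ℕ) (p : ℕ × ℕ), 2 ≤ r → 1 ≤ m →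
    1 ≤ p.1 → 1 ≤ p.2 → p.1 + (2 * m + 1) * r + 1 ≤ n → p.2 + (2 * m + 1) * r + 1 ≤ n →
    ∀ g : V n → ℝ, ∑ x, g x = 0 → (∀ x, x ∉ bx (p.1 + m * r, p.2 + m * r) r → g x = 0) →
      (∀ x, |g x| ≤ 1 / (r : ℝ) ^ 2) →
      ex b (eb p ((2 * m + 1) * r)) ((bx p ((2 * m + 1) * r))ᶜ ∪ {cnr p}) (fun _ => 0)
          (fun h => pr g h ^ 2) -
        ex b (inn n) (bx p ((2 * m + 1) * r))ᶜ (fun _ => 0) (fun h => pr g h ^ 2) ≤
      C * (m : ℝ) ^ (-c)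

/-- the change of one second moment -/
theorem muv_core {b κ : ℝ} (hb : 0 ≤ b) (hκ : 0 < κ) {k j : ℕ} (hj : j + 1 ≤ k) {C0 c0 : ℝ}
    (hI : IDW1 b C0 c0) {m : ℕ} (hm1 : 1 ≤ m) {u1 u2 : ℕ} (h1 : 1 ≤ u1) (h2 : 1 ≤ u2)
    (h3 : u1 + (2 * m + 1) + 1 ≤ 2 ^ j) (h4 : u2 + (2 * m + 1) + 1 ≤ 2 ^ j) {q : ℕ}
    (hq : q = 2 ^ (k - (j + 1))) {g : V (2 ^ k) → ℝ} (hs : ∑ x, g x = 0)
    (hgs : ∀ x, x ∉ bx ((u1 + m) * (2 * q), (u2 + m) * (2 * q)) (2 * q) → g x = 0)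
    (hg1 : ∀ x, |g x| ≤ 1 / ((2 * q : ℕ) : ℝ) ^ 2) :
    exA b κ k j (fun h => pr g h ^ 2) - exA b κ k (j + 1) (fun h => pr g h ^ 2) ≤
      C0 * (m : ℝ) ^ (-c0) + 1 / 2 * (κ ^ 2 / 4 ^ (j + 1) *
        (38784 * Real.exp b * (((2 * (2 * m + 1) : ℕ) : ℝ) ^ 2 *
          (((2 * (2 * m + 1) : ℕ) : ℝ) + 2)))) := by
  have hq1 : 1 ≤ q := hq ▸ Nat.one_le_two_pow
  have hr1 : 1 ≤ 2 * q := by omega
  have hn1 : 2 ^ k = 2 ^ (j + 1) * q := by
    rw [hq, ← pow_add]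
    congr 1
    omega
  have hn2 : 2 ^ k = 2 ^ j * (2 * q) := by
    rw [hn1, pow_succ]
    ring
  have b1 : u1 * (2 * q) + (2 * m + 1) * (2 * q) + 1 ≤ 2 ^ k := by
    have := Nat.mul_le_mul_right (2 * q) h3
    rw [← hn2, add_mul, add_mul u1] at this
    omega
  have b2 : u2 * (2 * q) + (2 * m + 1) * (2 * q) + 1 ≤ 2 ^ k := by
    have := Nat.mul_le_mul_right (2 * q) h4
    rw [← hn2, add_mul, add_mul u2] at this
    omega
  have c1 : 1 ≤ u1 * (2 * q) := Nat.mul_pos h1 hr1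
  have c2 : 1 ≤ u2 * (2 * q) := Nat.mul_pos h2 hr1
  have e1 : (u1 + m) * (2 * q) = u1 * (2 * q) + m * (2 * q) := add_mul _ _ _
  have e2 : (u2 + m) * (2 * q) = u2 * (2 * q) + m * (2 * q) := add_mul _ _ _
  have e3 : (2 * m + 1) * (2 * q) = m * (2 * q) + (m * (2 * q) + 2 * q) := by ring
  rw [e1, e2] at hgs
  -- (1) free against zero boundary conditions
  have hIe := hI (2 ^ k) (2 * q) m (u1 * (2 * q), u2 * (2 * q)) (by omega) hm1 c1 c2 b1 b2 g hs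
    hgs hg1
  -- (2) upper bound
  have hsu : ∀ x : V (2 ^ k), x ∉ bx (u1 * (2 * q), u2 * (2 * q)) ((2 * m + 1) * (2 * q)) →
      g x = 0 := by
    intro x hx
    apply hgs
    rw [mem_bx] at hx ⊢
    simp only at hx ⊢
    omega
  have hup := upper_A (b := b) (κ := κ) hb hκ (k := k) (j := j) (by omega)
    (p := (u1 * (2 * q), u2 * (2 * q))) (s := (2 * m + 1) * (2 * q))
    (by simp only; omega) (by simp only; omega) (by omega) hs hsu
  -- (3) lower bound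
  have hXn : ((bx (n := 2 ^ k) (u1 * (2 * q), u2 * (2 * q)) ((2 * m + 1) * (2 * q)))ᶜ).Nonempty := by
    refine ⟨vp _ 0 0, ?_⟩
    rw [Finset.mem_compl, mem_bx]
    unfold vp
    simp only
    rw [vc (by positivity)]
    omega
  have hlo := lower_A (b := b) (κ := κ) hb hκ (k := k) (j := j + 1) hj hXn g
  -- (4) the mass term
  have hZ := zm_neut (n := 2 ^ k) hb hXn (q := (u1 * (2 * q) + m * (2 * q),
    u2 * (2 * q) + m * (2 * q))) (r := 2 * q) (by omega) (by simp only; omega)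
    (by simp only; omega) hs hgs hg1
  have hZ2 := hZ.2
  rw [ex_inn hb] at hZ2
  have f1 : u1 * (2 * q) = (2 * u1) * q := by ring
  have f2 : u2 * (2 * q) = (2 * u2) * q := by ring
  have f3 : (2 * m + 1) * (2 * q) = (2 * (2 * m + 1)) * q := by ring
  have hZ1 := hZ.1
  rw [f1, f2, f3] at hZ1 hZ2
  have hC := cells_sum (n := 2 ^ k) hb (u := (2 * u1, 2 * u2)) (w := 2 * (2 * m + 1))
    (M := 2 ^ (j + 1)) (q := q) hq1 hn1 (by simp only; omega) (by simp only; omega) (g := g)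
    hZ1 hZ2
  simp only at hC
  rw [← f1, ← f2, ← f3] at hC
  have hT : ex b (inn (2 ^ k)) (bx (u1 * (2 * q), u2 * (2 * q)) ((2 * m + 1) * (2 * q)))ᶜ
      (fun _ => 0) (fun h => pr g h ^ 2 * massA κ k (j + 1) h) ≤ κ ^ 2 / 4 ^ (j + 1) *
        (38784 * Real.exp b * (((2 * (2 * m + 1) : ℕ) : ℝ) ^ 2 *
          (((2 * (2 * m + 1) : ℕ) : ℝ) + 2))) := by
    have e : ∀ h : V (2 ^ k) → ℤ, pr g h ^ 2 * massA κ k (j + 1) h = κ ^ 2 / 4 ^ (j + 1) *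
        (pr g h ^ 2 * ∑ c ∈ Finset.range (2 ^ (j + 1)) ×ˢ Finset.range (2 ^ (j + 1)),
          SpecI.avg q c h ^ 2) := by
      intro h
      unfold massA
      rw [← hq]
      ring
    rw [ex_inn hb]
    simp only [e]
    rw [integral_const_mul]
    exact mul_le_mul_of_nonneg_left hC (by positivity)
  linarith

/-- numbers -/
lemma muv_num {C0 c0 κ b : ℝ} (hC0 : 0 < C0) (hc0 : 0 < c0) (j : ℕ) :
    16 * (C0 * ((2 ^ (j / 3) : ℕ) : ℝ) ^ (-c0) + 1 / 2 * (κ ^ 2 / 4 ^ (j + 1) *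
        (38784 * Real.exp b * (((2 * (2 * 2 ^ (j / 3) + 1) : ℕ) : ℝ) ^ 2 *
          (((2 * (2 * 2 ^ (j / 3) + 1) : ℕ) : ℝ) + 2))))) ≤
      (16 * (C0 * 2 ^ c0) + 8 * (2792448 * Real.exp b * κ ^ 2)) *
        (2 : ℝ) ^ (-(min (c0 / 3) 1 * j)) := by
  set m : ℝ := ((2 ^ (j / 3) : ℕ) : ℝ) with hm
  have hm1 : (1 : ℝ) ≤ m := by
    rw [hm]
    exact_mod_cast Nat.one_le_two_pow
  have hw : ((2 * (2 * 2 ^ (j / 3) + 1) : ℕ) : ℝ) = 2 * (2 * m + 1) := by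
    rw [hm]
    push_cast
    ring
  rw [hw]
  have hm3 : m ^ 3 ≤ 2 ^ j := by
    have h1 : (2 ^ (j / 3)) ^ 3 ≤ 2 ^ j := by
      rw [← pow_mul]
      exact Nat.pow_le_pow_right (by norm_num) (by omega)
    rw [hm]
    exact_mod_cast h1
  have hj0 : (0 : ℝ) ≤ j := Nat.cast_nonneg j
  have hT : κ ^ 2 / 4 ^ (j + 1) * (38784 * Real.exp b * ((2 * (2 * m + 1)) ^ 2 *
      (2 * (2 * m + 1) + 2))) ≤
      2792448 * Real.exp b * κ ^ 2 * (2 : ℝ) ^ (-(min (c0 / 3) 1 * j)) := by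
    have h5 : (2 * (2 * m + 1)) ^ 2 ≤ 36 * m ^ 2 := by nlinarith
    have h6 : 2 * (2 * m + 1) + 2 ≤ 8 * m := by linarith
    have h7 : (2 * (2 * m + 1)) ^ 2 * (2 * (2 * m + 1) + 2) ≤ 288 * 2 ^ j := by
      calc (2 * (2 * m + 1)) ^ 2 * (2 * (2 * m + 1) + 2) ≤ (36 * m ^ 2) * (8 * m) :=
            mul_le_mul h5 h6 (by positivity) (by positivity)
        _ = 288 * m ^ 3 := by ring
        _ ≤ _ := by linarith
    have h8 : (2 : ℝ) ^ (-(j : ℝ)) ≤ (2 : ℝ) ^ (-(min (c0 / 3) 1 * j)) := by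
      apply Real.rpow_le_rpow_of_exponent_le (by norm_num)
      have h1 : min (c0 / 3) 1 ≤ 1 := min_le_right _ _
      nlinarith
    have h9 : (2 : ℝ) ^ j / 4 ^ j = (2 : ℝ) ^ (-(j : ℝ)) := by
      rw [Real.rpow_neg (by norm_num), Real.rpow_natCast]
      rw [show (4 : ℝ) = 2 * 2 by norm_num, mul_pow]
      field_simp
    calc _ ≤ κ ^ 2 / 4 ^ (j + 1) * (38784 * Real.exp b * (288 * 2 ^ j)) := by gcongr
      _ = 2792448 * Real.exp b * κ ^ 2 * (2 ^ j / 4 ^ j) := by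
          rw [pow_succ]
          field_simp
          ring
      _ ≤ _ := by
          rw [h9]
          exact mul_le_mul_of_nonneg_left h8 (by positivity)
  have hI2 : C0 * m ^ (-c0) ≤ C0 * 2 ^ c0 * (2 : ℝ) ^ (-(min (c0 / 3) 1 * j)) := by
    rw [mul_assoc]
    refine mul_le_mul_of_nonneg_left ?_ hC0.le
    have e1 : m = (2 : ℝ) ^ ((j / 3 : ℕ) : ℝ) := by
      rw [Real.rpow_natCast, hm]
      push_cast
      rfl
    rw [e1, ← Real.rpow_mul (by norm_num), ← Real.rpow_add (by norm_num)]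
    apply Real.rpow_le_rpow_of_exponent_le (by norm_num)
    have h1 : min (c0 / 3) 1 ≤ c0 / 3 := min_le_left _ _
    have h3 : (j : ℝ) ≤ 3 * ((j / 3 : ℕ) : ℝ) + 3 := by
      have : j ≤ 3 * (j / 3) + 3 := by omega
      exact_mod_cast this
    nlinarith
  linarith

/-- **MUV** -/
theorem muv {b : ℝ} (hb : 0 ≤ b) (hI : IDWI b) : MUV b := by
  intro κ hκ
  obtain ⟨C0, c0, hC0, hc0, hI⟩ := hI
  refine ⟨16 * (C0 * 2 ^ c0) + 8 * (2792448 * Real.exp b * κ ^ 2), min (c0 / 3) 1,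
    by positivity, by positivity, ?_⟩
  intro k j hj d hd1 hd2 hd3 hd4
  have hm1 : 1 ≤ 2 ^ (j / 3) := Nat.one_le_two_pow
  obtain ⟨u1, hu1⟩ : ∃ u1, d.1 / 2 = u1 + 2 ^ (j / 3) := ⟨d.1 / 2 - 2 ^ (j / 3), by omega⟩
  obtain ⟨u2, hu2⟩ : ∃ u2, d.2 / 2 = u2 + 2 ^ (j / 3) := ⟨d.2 / 2 - 2 ^ (j / 3), by omega⟩
  rw [hu1] at hd1 hd3
  rw [hu2] at hd2 hd4
  obtain ⟨q, hq⟩ : ∃ q, q = 2 ^ (k - (j + 1)) := ⟨_, rfl⟩
  have hq1 : 1 ≤ q := hq ▸ Nat.one_le_two_pow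
  have hn2 : 2 ^ k = 2 ^ j * (2 * q) := by
    rw [hq, ← mul_assoc, ← pow_succ, ← pow_add]
    congr 1
    omega
  have hf1 : (d.1 / 2 + 1) * (2 * q) ≤ 2 ^ k := by
    rw [hn2, hu1]
    exact Nat.mul_le_mul_right _ (by omega)
  have hf2 : (d.2 / 2 + 1) * (2 * q) ≤ 2 ^ k := by
    rw [hn2, hu2]
    exact Nat.mul_le_mul_right _ (by omega)
  have hfacts := fun x : V (2 ^ k) => dc_facts (n := 2 ^ k) hq1 hf1 hf2 x
  rw [hu1, hu2] at hfacts
  have hs : ∑ x : V (2 ^ k), dc q d x / 4 = 0 := by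
    rw [← Finset.sum_div, sum_dc hq1, zero_div]
  have hcore := muv_core (b := b) (κ := κ) hb hκ hj (C0 := C0) (c0 := c0) hI
    (m := 2 ^ (j / 3)) hm1 (u1 := u1) (u2 := u2) (by omega) (by omega) (by omega) (by omega)
    (q := q) hq (g := fun x => dc q d x / 4) hs
    (fun x hx => by rw [(hfacts x).2 hx, zero_div])
    (fun x => by
      have := (hfacts x).1
      rw [abs_div, abs_of_pos (by norm_num : (0 : ℝ) < 4), div_le_iff₀ (by norm_num)]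
      refine this.trans ?_
      rw [div_mul_eq_mul_div]
      gcongr
      norm_num)
  have hDc : ∀ h : V (2 ^ k) → ℤ, Dc q d h ^ 2 = 16 * pr (fun x => dc q d x / 4) h ^ 2 := by
    intro h
    have e1 : Dc q d h = 4 * pr (fun x => dc q d x / 4) h := by
      rw [Dc_lin]
      unfold pr H22.lin
      rw [Finset.mul_sum]
      exact Finset.sum_congr rfl fun x _ => by ring
    rw [e1]
    ring
  rw [← hq]
  simp only [hDc]
  have e2 : ∀ i, exA b κ k i (fun h => 16 * pr (fun x => dc q d x / 4) h ^ 2) =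
      16 * exA b κ k i (fun h => pr (fun x => dc q d x / 4) h ^ 2) := fun i => ex_smul _ _ _ _ _ _
  rw [e2, e2, ← mul_sub]
  exact (mul_le_mul_of_nonneg_left hcore (by norm_num)).trans (muv_num hC0 hc0 j)

end Vale.Agent.P159.TM.H928
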