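import Vale.Agent.P159.TM.H928.Emb

/-!
P159, row IDWI: expectations `ex` of `Spec/I.lean` as expectations of `mw N b` (wired box), of
`W0 N b` (zero boundary conditions) and of `mz` on the free box `V n`.
-/

open MeasureTheory
open scoped BigOperators

namespace Vale.Agent.P159.TM.H928

open Vale.Agent.P159.T1 Vale.Agent.P159.T1.H934 Vale.Agent.P159.T1.H910
open Vale.Agent.P159.H353 (wI wI_zero_pos wI_neg)
open Vale.Agent.P159.R2.H254 (Fa Eb blf brt bcur Hgt hWt hWt_eq)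
open Vale.Agent.P159.TM.SpecI Vale.Agent.P159.TM.H574
open Vale.Agent.P159.TM.H331 (Bd he fcur W0)

section trans

variable {n : ℕ} [NeZero n] {N : ℕ} {p : ℕ × ℕ} {b : ℝ}

omit [NeZero n] in
lemma em_zero : em n N p (0, 0) = ((p.1 : ZMod n), (p.2 : ZMod n)) := by
  unfold em
  simp

lemma em_cnr : em n N p (0, 0) = cnr p := em_zero

lemma wt_zero (b : ℝ) (es : Finset (V n × Bool)) (X : Finset (V n)) (h : V n → ℤ) :
    wt b es X (fun _ => 0) h = (if ∀ x ∈ X, h x = 0 then 1 else 0) *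
      ∏ e ∈ es, wI b (h (tgt e) - h e.1) := by
  classical
  unfold wt
  simp only [neg_zero, zero_div, Real.exp_zero, mul_one]
  congr 1
  split_ifs <;> rfl

/-- wired box -/
lemma sum_eb (hb : 0 ≤ b) (h1 : p.1 + (N + 1) ≤ n) (h2 : p.2 + (N + 1) ≤ n)
    (F : (V n → ℤ) → ℝ) :
    ∑' h : V n → ℤ, wt b (eb p (N + 1)) ((bx p (N + 1))ᶜ ∪ {cnr p}) (fun _ => 0) h * F h =
      ∑' g : Hgt N, hWt N b g.1 * F (xt n p g.1) := by
  classical
  have hinj : Function.Injective fun g : Hgt N => xt n p g.1 :=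
    (xt_inj h1 h2).comp Subtype.val_injective
  rw [← hinj.tsum_eq]
  · refine tsum_congr fun g => ?_
    rw [wt_zero, if_pos, one_mul, prod_eb hb h1 h2]
    intro x hx
    rw [Finset.mem_union, Finset.mem_compl, Finset.mem_singleton] at hx
    rcases hx with hx | rfl
    · exact xt_off h1 h2 _ hx
    · rw [← em_cnr (N := N), xt_em h1 h2]
      exact g.2
  · intro h hh
    rw [Function.mem_support, wt_zero] at hh
    have h3 : ∀ x ∈ (bx p (N + 1))ᶜ ∪ {cnr p}, h x = 0 := by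
      by_contra hcon
      rw [if_neg hcon, zero_mul, zero_mul] at hh
      exact hh rfl
    refine ⟨⟨fun x => h (em n N p x), ?_⟩, ?_⟩
    · show h (em n N p (0, 0)) = 0
      rw [em_cnr]
      exact h3 _ (Finset.mem_union_right _ (Finset.mem_singleton_self _))
    · exact xt_surj h1 h2 fun v hv => h3 v (Finset.mem_union_left _ (Finset.mem_compl.2 hv))

/-- **T1** -/
theorem ex_eb (hb : 0 ≤ b) (h1 : p.1 + (N + 1) ≤ n) (h2 : p.2 + (N + 1) ≤ n)
    (F : (V n → ℤ) → ℝ) :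
    ex b (eb p (N + 1)) ((bx p (N + 1))ᶜ ∪ {cnr p}) (fun _ => 0) F =
      ∫ g, F (xt n p g) ∂(mw N b) := by
  unfold ex
  rw [sum_eb hb h1 h2, integral_mw hb]
  congr 1
  have := sum_eb hb h1 h2 (n := n) fun _ => 1
  simpa only [mul_one] using this

/-- **T2**: zero boundary conditions -/
theorem sum_inn (hb : 0 ≤ b) (h1 : p.1 + (N + 1) + 1 ≤ n) (h2 : p.2 + (N + 1) + 1 ≤ n)
    (hp1 : 1 ≤ p.1) (hp2 : 1 ≤ p.2) :
    ∃ c : ℝ, 0 < c ∧ ∀ F : (V n → ℤ) → ℝ,
      ∑' h : V n → ℤ, wt b (inn n) (bx p (N + 1))ᶜ (fun _ => 0) h * F h =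
        c * ∑' g : Fa N → ℤ, W0 N b g * F (xt n p g) := by
  classical
  obtain ⟨c, hc, hW⟩ := prod_inn (n := n) hb h1 h2 hp1 hp2
  refine ⟨c, hc, fun F => ?_⟩
  have h1' : p.1 + (N + 1) ≤ n := by omega
  have h2' : p.2 + (N + 1) ≤ n := by omega
  rw [← (xt_inj h1' h2').tsum_eq, ← tsum_mul_left]
  · refine tsum_congr fun g => ?_
    rw [wt_zero, if_pos, one_mul, hW, mul_assoc]
    intro x hx
    exact xt_off h1' h2' _ (Finset.mem_compl.1 hx)
  · intro h hh
    rw [Function.mem_support, wt_zero] at hh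
    have h3 : ∀ x ∈ (bx p (N + 1))ᶜ, h x = 0 := by
      by_contra hcon
      rw [if_neg hcon, zero_mul, zero_mul] at hh
      exact hh rfl
    exact ⟨fun x => h (em n N p x), xt_surj h1' h2' fun v hv => h3 v (Finset.mem_compl.2 hv)⟩

/-! ### the free box as a graph -/

/-- first end of an edge -/
def ss (n : ℕ) [NeZero n] (e : {e : V n × Bool // e ∈ inn n}) : V n := e.1.1

/-- second end of an edge -/
def tt (n : ℕ) [NeZero n] (e : {e : V n × Bool // e ∈ inn n}) : V n := tgt e.1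

/-- position of the site `(i, j)` -/
def vp (n : ℕ) (i j : ℕ) : V n := ((i : ZMod n), (j : ZMod n))

lemma grid_V : IsGrid (ss n) (tt n) (vp n) n n where
  inj i j i' j' hi hj hi' hj' h := by
    unfold vp at h
    rw [Prod.mk.injEq] at h
    have e1 := congrArg ZMod.val h.1
    have e2 := congrArg ZMod.val h.2
    rw [vc hi, vc hi'] at e1
    rw [vc hj, vc hj'] at e2
    exact ⟨e1, e2⟩
  hor i j hi hj := by
    have h : (vp n i j, false) ∈ inn n := by
      rw [mem_inn]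
      right
      refine ⟨rfl, ?_⟩
      show ((i : ZMod n)).val + 1 < n
      rw [vc (by omega)]
      exact hi
    refine ⟨⟨(vp n i j, false), h⟩, Or.inl ⟨rfl, ?_⟩⟩
    show tgt (vp n i j, false) = vp n (i + 1) j
    rw [tgt_false]
    unfold vp
    push_cast
    rfl
  ver i j hi hj := by
    have h : (vp n i j, true) ∈ inn n := by
      rw [mem_inn]
      left
      refine ⟨rfl, ?_⟩
      show ((j : ZMod n)).val + 1 < n
      rw [vc (by omega)]
      exact hj
    refine ⟨⟨(vp n i j, true), h⟩, Or.inl ⟨rfl, ?_⟩⟩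
    show tgt (vp n i j, true) = vp n i (j + 1)
    rw [tgt_true]
    unfold vp
    push_cast
    rfl

lemma conn_V : Conn (ss n) (tt n) :=
  conn_of_grid grid_V fun v => ⟨v.1.val, v.2.val, ZMod.val_lt _, ZMod.val_lt _, by
    unfold vp
    rw [ZMod.natCast_zmod_val, ZMod.natCast_zmod_val]⟩

/-- the law of the free box with heights `0` on `X` -/
noncomputable abbrev mv (n : ℕ) [NeZero n] (b : ℝ) (X : Finset (V n)) : Measure (V n → ℤ) :=
  mz (ss n) (tt n) (fun _ => b) (X : Set (V n))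

lemma ZZ_V (X : Finset (V n)) (F : (V n → ℤ) → ℝ) :
    H910.ZZ (ss n) (tt n) (fun _ => b) (X : Set (V n)) F =
      ∑' h : V n → ℤ, wt b (inn n) X (fun _ => 0) h * F h := by
  unfold H910.ZZ
  refine tsum_congr fun h => ?_
  rw [wt_zero]
  have h1 : W (grd (ss n) (tt n)) (fun _ => b) h = ∏ e ∈ inn n, wI b (h (tgt e) - h e.1) :=
    Finset.prod_coe_sort (inn n) fun e => wI b (h (tgt e) - h e.1)
  by_cases h0 : ∀ v ∈ (X : Set (V n)), h v = 0
  · rw [if_pos h0, if_pos (by simpa using h0), one_mul, h1]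
  · rw [if_neg h0, if_neg (by simpa using h0), zero_mul, zero_mul]

/-- **T3** -/
theorem ex_inn (hb : 0 ≤ b) (X : Finset (V n)) (F : (V n → ℤ) → ℝ) :
    ex b (inn n) X (fun _ => 0) F = ∫ h, F h ∂(mv n b X) := by
  rw [integral_mz (fun _ => hb), ZZ_V, ZZ_V]
  unfold ex
  simp only [mul_one]

lemma prob_mv (hb : 0 ≤ b) {X : Finset (V n)} (hX : X.Nonempty) :
    IsProbabilityMeasure (mv n b X) :=
  isProb_mz conn_V (fun _ => hb) (by exact_mod_cast hX)

/-- zero boundary conditions, ratio form -/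
theorem ex_W0 (hb : 0 ≤ b) (h1 : p.1 + (N + 1) + 1 ≤ n) (h2 : p.2 + (N + 1) + 1 ≤ n)
    (hp1 : 1 ≤ p.1) (hp2 : 1 ≤ p.2) (F : (V n → ℤ) → ℝ) :
    ex b (inn n) (bx p (N + 1))ᶜ (fun _ => 0) F =
      (∑' g : Fa N → ℤ, W0 N b g * F (xt n p g)) / ∑' g : Fa N → ℤ, W0 N b g := by
  obtain ⟨c, hc, h⟩ := sum_inn (n := n) hb h1 h2 hp1 hp2
  unfold ex
  rw [h F]
  have h3 := h fun _ => 1
  simp only [mul_one] at h3
  rw [h3, mul_div_mul_left _ _ hc.ne']

end trans

end Vale.Agent.P159.TM.H928
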